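import Vale.Agent.P058.Nil

namespace Vale.Agent.P058

open Finset

abbrev QA (M : Type) := AddMonoidAlgebra ℚ M

section
variable {M N : Type} [AddCommGroup M] [AddCommGroup N]

noncomputable def dl (x : M) : QA M := AddMonoidAlgebra.single x 1

lemma dl_add (x y : M) : dl (x + y) = dl x * dl y := by
  simp [dl, AddMonoidAlgebra.single_mul_single]

@[simp] lemma dl_zero : dl (0 : M) = 1 := rfl

lemma QA_ind {p : QA M → Prop} (h0 : p 0) (ha : ∀ x y, p x → p y → p (x + y))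
    (hs : ∀ (q : ℚ) x, p (q • dl x)) (x : QA M) : p x := by
  induction x using AddMonoidAlgebra.induction_linear with
  | zero => exact h0
  | add x y h1 h2 => exact ha x y h1 h2
  | single m r => simpa [dl] using hs r m

noncomputable def mp (f : M →+ N) : QA M →ₐ[ℚ] QA N := AddMonoidAlgebra.mapDomainAlgHom ℚ ℚ f

@[simp] lemma mp_dl (f : M →+ N) (x : M) : mp f (dl x) = dl (f x) := by simp [mp, dl]

noncomputable def Pos (M : Type) [AddCommGroup M] : AddSubmonoid (QA M) :=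
  AddSubmonoid.closure {x | ∃ (q : ℚ) (φ : M), 0 ≤ q ∧ x = q • dl φ}

lemma Pos_ind {p : QA M → Prop} (h0 : p 0) (ha : ∀ x y, p x → p y → p (x + y))
    (hs : ∀ (q : ℚ) x, 0 ≤ q → p (q • dl x)) {x : QA M} (hx : x ∈ Pos M) : p x := by
  induction hx using AddSubmonoid.closure_induction with
  | mem x hx => obtain ⟨q, φ, h, rfl⟩ := hx; exact hs q φ h
  | zero => exact h0
  | add x y _ _ h1 h2 => exact ha x y h1 h2

lemma Pos_sd {q : ℚ} (h : 0 ≤ q) (x : M) : q • dl x ∈ Pos M :=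
  AddSubmonoid.subset_closure ⟨q, x, h, rfl⟩

lemma Pos_dl (x : M) : dl x ∈ Pos M := by simpa using Pos_sd zero_le_one x

lemma Pos_smul {q : ℚ} (h : 0 ≤ q) {x : QA M} (hx : x ∈ Pos M) : q • x ∈ Pos M :=
  Pos_ind (p := fun x => q • x ∈ Pos M) (by simp) (fun x y h1 h2 => by
    rw [smul_add]; exact add_mem h1 h2) (fun r x hr => by
    rw [smul_smul]; exact Pos_sd (mul_nonneg h hr) x) hx

lemma Pos_mp (f : M →+ N) {x : QA M} (hx : x ∈ Pos M) : mp f x ∈ Pos N :=
  Pos_ind (p := fun x => mp f x ∈ Pos N) (by simp) (fun x y h1 h2 => by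
    rw [map_add]; exact add_mem h1 h2) (fun r x hr => by
    rw [map_smul, mp_dl]; exact Pos_sd hr _) hx

lemma Pos_mul {x y : QA M} (hx : x ∈ Pos M) (hy : y ∈ Pos M) : x * y ∈ Pos M :=
  Pos_ind (p := fun x => x * y ∈ Pos M) (by simp) (fun x y h1 h2 => by
    rw [add_mul]; exact add_mem h1 h2) (fun r x hr => Pos_ind (p := fun y => r • dl x * y ∈ Pos M)
      (by simp) (fun x y h1 h2 => by rw [mul_add]; exact add_mem h1 h2) (fun s y hs => by
        rw [smul_mul_smul_comm, ← dl_add]; exact Pos_sd (mul_nonneg hr hs) _) hy) hx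

lemma Pos_sub (x : QA M) : ∃ y ∈ Pos M, x + y ∈ Pos M := by
  induction x using QA_ind with
  | h0 => exact ⟨0, zero_mem _, by simp⟩
  | ha x y h1 h2 =>
    obtain ⟨x', a1, a2⟩ := h1
    obtain ⟨y', b1, b2⟩ := h2
    exact ⟨_, add_mem a1 b1, by rw [add_add_add_comm]; exact add_mem a2 b2⟩
  | hs q x =>
    exact ⟨|q| • dl x, Pos_sd (abs_nonneg q) x, by
      rw [← add_smul]; exact Pos_sd (by linarith [neg_abs_le q]) x⟩

lemma Pos_list {x : QA M} (hx : x ∈ Pos M) :
    ∃ n : ℕ, 0 < n ∧ ∀ k : ℕ, ∃ l : List M, (l.map dl).sum = ((k * n : ℕ) : ℚ) • x := by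
  refine Pos_ind (p := fun x => ∃ n : ℕ, 0 < n ∧ ∀ k : ℕ, ∃ l : List M,
    (l.map dl).sum = ((k * n : ℕ) : ℚ) • x) ⟨1, one_pos, fun k => ⟨[], by simp⟩⟩ ?_ ?_ hx
  · rintro x y ⟨n, n0, hn⟩ ⟨m, m0, hm⟩
    refine ⟨n * m, by positivity, fun k => ?_⟩
    obtain ⟨l, hl⟩ := hn (k * m)
    obtain ⟨l', hl'⟩ := hm (k * n)
    exact ⟨l ++ l', by rw [List.map_append, List.sum_append, hl, hl']; push_cast; module⟩
  · intro q x hq
    refine ⟨q.den, q.den_pos, fun k => ⟨List.replicate (k * q.num.toNat) x, ?_⟩⟩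
    rw [List.map_replicate, List.sum_replicate, smul_smul, ← Nat.cast_smul_eq_nsmul ℚ]
    congr 1
    have : ((q.num.toNat : ℤ) : ℚ) = q.num := by rw [Int.toNat_of_nonneg (Rat.num_nonneg.mpr hq)]
    push_cast at this ⊢
    rw [this, mul_assoc, Rat.den_mul_eq_num]

lemma perm_of_sum {l l' : List M} (h : (l.map dl).sum = (l'.map dl).sum) : l.Perm l' := by
  classical
  have : ∀ (l : List M) x, (l.map dl).sum.coeff x = l.count x := fun l x => by
    induction l with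
    | nil => simp
    | cons y l ih =>
      simp only [List.map_cons, List.sum_cons, AddMonoidAlgebra.coeff_add, Finsupp.add_apply, ih,
        List.count_cons, dl, AddMonoidAlgebra.coeff_single, Finsupp.single_apply]
      by_cases e : y = x <;> simp [e, add_comm]
  refine List.perm_iff_count.mpr fun x => ?_
  have e := this l x
  rw [h, this] at e
  exact_mod_cast e.symm

end

noncomputable def I : Ideal (QA ℝ) := Ideal.span (Set.range fun x : ℝ => dl x - 1)

lemma mem_I (x : ℝ) : dl x - 1 ∈ I := Ideal.subset_span ⟨x, rfl⟩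

lemma I_ind (k : ℕ) {p : QA ℝ → Prop} (ha : ∀ x y, p x → p y → p (x + y))
    (hs : ∀ m ∈ I ^ k, ∀ x, p (m * (dl x - 1))) {m : QA ℝ} (hm : m ∈ I ^ (k + 1)) : p m := by
  rw [pow_succ] at hm
  refine Submodule.mul_induction_on hm (fun m hm x hx => ?_) ha
  induction hx using Submodule.span_induction generalizing m with
  | mem _ hx => obtain ⟨x, rfl⟩ := hx; exact hs m hm x
  | zero => simpa using hs 0 (zero_mem _) 0
  | add x y _ _ h1 h2 => rw [mul_add]; exact ha _ _ (h1 m hm) (h2 m hm)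
  | smul r x _ h => rw [smul_eq_mul, ← mul_assoc]; exact h _ (Ideal.mul_mem_right _ _ hm)

noncomputable def sc (M : Type) [AddCommGroup M] (n : ℕ) : M →+ M := nsmulAddMonoidHom n

lemma sc_I (n k : ℕ) : ∀ m ∈ I ^ k, mp (sc ℝ n) m - (n : QA ℝ) ^ k * m ∈ I ^ (k + 1) := by
  induction k with
  | zero =>
    intro m hm
    clear hm
    rw [zero_add, pow_one, pow_zero, one_mul]
    induction m using QA_ind with
    | h0 => simp
    | ha x y h1 h2 => convert add_mem h1 h2 using 1; rw [map_add]; ring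
    | hs q x =>
      rw [map_smul, mp_dl, ← smul_sub, Algebra.smul_def]
      refine Ideal.mul_mem_left _ _ ?_
      convert sub_mem (mem_I (sc ℝ n x)) (mem_I x) using 1; ring
  | succ k ih =>
    intro m hm
    refine I_ind k (p := fun m => mp (sc ℝ n) m - (n : QA ℝ) ^ (k + 1) * m ∈ I ^ (k + 1 + 1))
      (fun x y h1 h2 => by convert add_mem h1 h2 using 1; rw [map_add]; ring) (fun m hm x => ?_) hm
    have : ∀ n : ℕ, dl (n • x) - 1 - n * (dl x - 1) ∈ I ^ 2 := fun n => by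
      induction n with
      | zero => simp
      | succ n ih =>
        convert add_mem ih (sq I ▸ Ideal.mul_mem_mul (mem_I (n • x)) (mem_I x)) using 1
        rw [succ_nsmul, dl_add]; push_cast; ring
    have a := Ideal.mul_mem_mul (ih m hm) (mem_I (n • x))
    have b := Ideal.mul_mem_mul (Ideal.mul_mem_left _ ((n : QA ℝ) ^ k) hm) (this n)
    rw [← pow_succ] at a
    rw [← pow_add] at b
    convert add_mem a b using 1
    rw [map_mul, map_sub, mp_dl, map_one]
    show _ * (dl (n • x) - 1) - _ = _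
    ring

variable {ι : Type} {d : ℕ} {a : ι → Fin d → ℝ}

noncomputable def Qc : QA (W d) →ₗ[ℚ] Cost d :=
  Finsupp.linearCombination ℚ cost ∘ₗ (AddMonoidAlgebra.coeffLinearEquiv ℚ).toLinearMap

@[simp] lemma Qc_dl (φ : W d) : Qc (dl φ) = cost φ := by simp [Qc, dl]

noncomputable def trc : Cost d →ₗ[ℚ] ℝ := ∑ α, LinearMap.proj (Pi.single α 1)

lemma trc_apply (q : Cost d) : trc q = ∑ α, q (Pi.single α 1) := by simp [trc]

lemma trc_cost (φ : W d) : trc (cost φ) = tr φ := by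
  simp [trc_apply, cost, tr, Pi.single_apply]

lemma trc_nrm : trc (nrm d) = d := by simp [trc_apply, nrm, Pi.single_apply]

def Neg (ν : QA (W d)) (ε : ℝ) : Prop := ∃ μ ∈ Pos (W d), ν + μ ∈ Pos (W d) ∧ trc (Qc μ) ≤ ε

lemma Neg.add {ν ν' : QA (W d)} {ε ε' : ℝ} (h : Neg ν ε) (h' : Neg ν' ε') :
    Neg (ν + ν') (ε + ε') := by
  obtain ⟨μ, a1, a2, a3⟩ := h
  obtain ⟨μ', b1, b2, b3⟩ := h'
  exact ⟨_, add_mem a1 b1, by rw [add_add_add_comm]; exact add_mem a2 b2,
    by rw [map_add, map_add]; linarith⟩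

lemma Neg.smul {ν : QA (W d)} {ε : ℝ} (h : Neg ν ε) {q : ℚ} (hq : 0 ≤ q) : Neg (q • ν) (q * ε) := by
  obtain ⟨μ, a1, a2, a3⟩ := h
  refine ⟨_, Pos_smul hq a1, by rw [← smul_add]; exact Pos_smul hq a2, ?_⟩
  rw [map_smul, map_smul, Rat.smul_def]
  exact mul_le_mul_of_nonneg_left a3 (by exact_mod_cast hq)

lemma Neg.neg {ν : QA (W d)} {ε : ℝ} (h : Neg ν ε) : Neg (-ν) (trc (Qc ν) + ε) := by
  obtain ⟨μ, a1, a2, a3⟩ := h
  exact ⟨_, a2, by simpa using a1, by rw [map_add, map_add]; linarith⟩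

lemma Neg.mono {ν : QA (W d)} {ε ε' : ℝ} (h : Neg ν ε) (e : ε ≤ ε') : Neg ν ε' := by
  obtain ⟨μ, a1, a2, a3⟩ := h
  exact ⟨_, a1, a2, a3.trans e⟩

lemma Qc_sc (n : ℕ) (ν : QA (W d)) : Qc (mp (sc _ n) ν) = (n : ℚ) ^ 2 • Qc ν := by
  induction ν using QA_ind with
  | h0 => simp
  | ha x y h1 h2 => simp [h1, h2]
  | hs q x =>
    rw [map_smul, map_smul, map_smul, mp_dl, Qc_dl, Qc_dl, smul_comm]
    congr 1
    show cost (n • x) = _
    rw [← Nat.cast_smul_eq_nsmul ℝ, cost_smul, ← Rat.cast_smul_eq_qsmul ℝ]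
    simp

lemma mp_mp {M N O : Type} [AddCommGroup M] [AddCommGroup N] [AddCommGroup O] (f : M →+ N)
    (g : N →+ O) (x : QA M) : mp g (mp f x) = mp (g.comp f) x := by
  induction x using QA_ind with
  | h0 => simp
  | ha x y h1 h2 => simp [h1, h2]
  | hs q x => simp

def ARel (a : ι → Fin d → ℝ) (k : ℕ) : Prop := ∀ δ : ℝ, 0 < δ →
  ∃ ν : QA (W d), Qc ν = nrm d ∧ Neg ν δ ∧ ∀ i, mp (ev a i) ν ∈ I ^ k

lemma ARel.succ {k : ℕ} (hk : 3 ≤ k) (h : ARel a k) : ARel a (k + 1) := fun δ δ0 => by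
  obtain ⟨ν, h1, h2, h3⟩ := h (δ / 4) (by positivity)
  obtain ⟨n, hn⟩ := exists_nat_gt (max (4 * (d + δ / 4) / δ) 2)
  have n2 : (2 : ℝ) ≤ n := (le_max_right _ _).trans hn.le
  have n3 := (div_lt_iff₀ δ0).mp ((le_max_left _ _).trans_lt hn)
  have M : (n : ℝ) * n ^ 2 ≤ n ^ k := by
    rw [← pow_succ']; exact pow_le_pow_right₀ (by linarith) hk
  have n0 : (0 : ℝ) < n ^ 2 := by positivity
  have p : (0 : ℝ) < n ^ k - n ^ 2 := by nlinarith
  have p' : (0 : ℚ) < n ^ k - n ^ 2 := by exact_mod_cast p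
  have h4 : Neg (mp (sc _ n) ν) (n ^ 2 * (δ / 4)) := by
    obtain ⟨μ, a1, a2, a3⟩ := h2
    refine ⟨_, Pos_mp _ a1, by rw [← map_add]; exact Pos_mp _ a2, ?_⟩
    rw [Qc_sc, map_smul, Rat.smul_def]
    push_cast; gcongr
  refine ⟨((n : ℚ) ^ k - n ^ 2)⁻¹ • ((n : ℚ) ^ k • ν + -mp (sc _ n) ν), ?_,
    (((h2.smul (by positivity)).add h4.neg).smul (by positivity)).mono ?_, fun i => ?_⟩
  · rw [map_smul, map_add, map_smul, map_neg, Qc_sc, h1, ← sub_eq_add_neg, ← sub_smul, smul_smul,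
      inv_mul_cancel₀ p'.ne', one_smul]
  · rw [Qc_sc, h1, map_smul, trc_nrm, Rat.smul_def]
    push_cast
    rw [inv_mul_le_iff₀ p]
    have := mul_le_mul_of_nonneg_right M δ0.le
    have := mul_le_mul_of_nonneg_left n3.le n0.le
    have := mul_le_mul_of_nonneg_left n2 (mul_pos n0 δ0).le
    nlinarith
  · rw [map_smul, Algebra.smul_def]
    refine Ideal.mul_mem_left _ _ ?_
    convert neg_mem (sc_I n k _ (h3 i)) using 1
    rw [map_add, map_neg, map_smul, mp_mp, mp_mp, Algebra.smul_def,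
      show (ev a i).comp (sc _ n) = (sc ℝ n).comp (ev a i) from
        AddMonoidHom.ext fun x => map_nsmul (ev a i) n x]
    simp only [map_pow, map_natCast]
    ring

def Pb (d : ℕ) (U : QA ℝ) : Prop := U ∈ Pos ℝ ∧ ∀ ν : QA (W d), Qc (mp (cst d) U * ν) = Qc ν

lemma Pb.mul {U U' : QA ℝ} (h : Pb d U) (h' : Pb d U') : Pb d (U * U') :=
  ⟨Pos_mul h.1 h'.1, fun ν => by rw [map_mul (mp _), mul_assoc, h.2, h'.2]⟩

lemma Neg.pb {ν : QA (W d)} {ε : ℝ} (h : Neg ν ε) {U : QA ℝ} (hU : Pb d U) :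
    Neg (mp (cst d) U * ν) ε := by
  obtain ⟨μ, a1, a2, a3⟩ := h
  exact ⟨_, Pos_mul (Pos_mp _ hU.1) a1, by rw [← mul_add]; exact Pos_mul (Pos_mp _ hU.1) a2,
    by rwa [hU.2]⟩

lemma Pb_dl (x : ℝ) : Pb d (dl x) := ⟨Pos_dl x, fun ν => by
  induction ν using QA_ind with
  | h0 => simp
  | ha x y h1 h2 => rw [mul_add, map_add, map_add, h1, h2]
  | hs q x => rw [mul_smul_comm, mp_dl, ← dl_add]; simp⟩

@[simp] lemma ev_cst' (i : ι) (U : QA ℝ) : mp (ev a i) (mp (cst d) U) = U := by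
  induction U using QA_ind with
  | h0 => simp
  | ha x y h1 h2 => simp [h1, h2]
  | hs q x => simp

def Nb (a : ι → Fin d → ℝ) (m : ι → QA ℝ) : Prop := ∀ ε : ℝ, 0 < ε →
  ∃ U ν, Pb d U ∧ (∀ i, mp (ev a i) ν = U * m i) ∧ Qc ν = 0 ∧ Neg ν ε

lemma Nb.add {m m' : ι → QA ℝ} (h : Nb a m) (h' : Nb a m') : Nb a (m + m') := fun ε ε0 => by
  obtain ⟨U, ν, a1, a2, a3, a4⟩ := h _ (half_pos ε0)
  obtain ⟨U', ν', b1, b2, b3, b4⟩ := h' _ (half_pos ε0)
  refine ⟨U * U', _, a1.mul b1, fun i => ?_, ?_, ((a4.pb b1).add (b4.pb a1)).mono (by linarith)⟩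
  · simp only [map_add, map_mul, ev_cst', a2, b2, Pi.add_apply]; ring
  · rw [map_add, a1.2, b1.2, a3, b3, add_zero]

lemma lift_one [DecidableEq ι] (ha : Function.Injective a) (i : ι) (J : Finset ι) (hi : i ∉ J) :
    ∀ m ∈ I ^ J.card, ∃ ν, mp (ev a i) ν = m ∧ ∀ j ∈ J, mp (ev a j) ν = 0 := by
  induction J using Finset.induction_on with
  | empty => exact fun m _ => ⟨_, ev_cst' i m, by simp⟩
  | insert j J hj ih =>
    intro m hm
    rw [card_insert_of_notMem hj] at hm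
    refine I_ind _ (p := fun m => ∃ ν, mp (ev a i) ν = m ∧ ∀ k ∈ insert j J, mp (ev a k) ν = 0)
      ?_ (fun m hm x => ?_) hm
    · rintro _ _ ⟨ν, rfl, h⟩ ⟨ν', rfl, h'⟩
      exact ⟨ν + ν', map_add _ _ _, fun k hk => by simp [h k hk, h' k hk]⟩
    · obtain ⟨ν, rfl, h⟩ := ih (fun h => hi (mem_insert_of_mem h)) m hm
      obtain ⟨ψ, h1, h2⟩ := exists_sep (ha.ne fun e : i = j => hi (by simp [e]))
      refine ⟨ν * (dl (x • ψ) - 1), by simp [ev_smul, h1], fun k hk => ?_⟩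
      rcases mem_insert.mp hk with rfl | hk
      · simp [ev_smul, h2]
      · simp [h k hk]

variable [Fintype ι] [DecidableEq ι]

lemma Nb_single (ha : Function.Injective a) (i : ι) {m : QA ℝ}
    (hm : m ∈ I ^ (Fintype.card ι + 1)) : Nb a (Pi.single i m) := by
  refine I_ind _ (p := fun m => Nb a (Pi.single i m))
    (fun x y h1 h2 => by rw [Pi.single_add]; exact h1.add h2) (fun m hm x ε ε0 => ?_) hm
  obtain ⟨ν, h1, h2⟩ := lift_one ha i _ (notMem_erase i univ) m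
    (Ideal.pow_le_pow_right (card_le_univ _) hm)
  obtain ⟨μ, a1, a2⟩ := Pos_sub ν
  have n1 : Neg ν _ := ⟨μ, a1, a2, le_rfl⟩
  obtain ⟨N, hN⟩ := exists_nat_gt (max ((trc (Qc μ) + (trc (Qc ν) + trc (Qc μ))) / ε) 0)
  have N0 : (0 : ℝ) < N := (le_max_right _ _).trans_lt hN
  have N1 : (0 : ℚ) < N := by exact_mod_cast N0
  refine ⟨(N : ℚ)⁻¹ • ∑ k ∈ range N, dl (k • x), _, ⟨Pos_smul (by positivity)
    (sum_mem fun k _ => Pos_dl _), fun ν => ?_⟩, fun j => ?_, ?_,
    (((n1.pb (Pb_dl (N • x))).add n1.neg).smul (inv_pos.mpr N1).le).mono ?_⟩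
  · rw [map_smul, smul_mul_assoc, map_smul, map_sum, sum_mul, map_sum]
    simp only [(Pb_dl _).2, sum_const, card_range]
    rw [← Nat.cast_smul_eq_nsmul ℚ, smul_smul, inv_mul_cancel₀ N1.ne', one_smul]
  · rw [map_smul, map_add, map_mul, map_neg, ev_cst', smul_mul_assoc]
    congr 1
    by_cases e : j = i
    · subst e
      have : ∀ N : ℕ, (∑ k ∈ range N, dl (k • x)) * (dl x - 1) = dl (N • x) - 1 := fun N => by
        induction N with
        | zero => simp
        | succ N ih => rw [sum_range_succ, add_mul, ih, succ_nsmul, dl_add]; ring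
      rw [h1, Pi.single_eq_same, mul_left_comm, this]; ring
    · simp [h2 j (by simp [e]), e]
  · rw [map_smul, map_add, (Pb_dl _).2]; simp
  · push_cast
    rw [inv_mul_le_iff₀ N0]
    exact ((div_lt_iff₀ ε0).mp ((le_max_left _ _).trans_lt hN)).le

theorem rel_one (ha : Function.Injective a) (h : ARel a 3) : Rel a 1 := fun δ δ0 => by
  have h' : ∀ k, ARel a (k + 3) := fun k => by
    induction k with
    | zero => exact h
    | succ k ih => exact ih.succ (by omega)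
  obtain ⟨ν, h1, h2, h3⟩ := h' (Fintype.card ι) _ (half_pos δ0)
  have nb : Nb a fun i => -mp (ev a i) ν := by
    rw [← univ_sum_single (fun i => -mp (ev a i) ν)]
    refine sum_induction _ _ (fun _ _ => Nb.add) (fun ε ε0 => ⟨1, 0, Pb_dl 0, by simp, by simp,
      0, zero_mem _, by simp, by simpa using ε0.le⟩) fun i _ => Nb_single ha i (neg_mem
        (Ideal.pow_le_pow_right (by omega) (h3 i)))
  obtain ⟨U, ν', a1, a2, a3, a4⟩ := nb _ (half_pos δ0)
  obtain ⟨μ, b1, b2, b3⟩ := (h2.pb a1).add a4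
  obtain ⟨n, n0, hn⟩ := Pos_list b1
  obtain ⟨m, m0, hm⟩ := Pos_list b2
  obtain ⟨l, hl⟩ := hn m
  obtain ⟨l', hl'⟩ := hm n
  have q : ∀ l : List (W d), Qc (l.map dl).sum = (l.map cost).sum := fun l => by
    rw [map_list_sum, List.map_map]; congr 2; ext1; simp
  obtain ⟨N, hN⟩ : ∃ N, N = m * n := ⟨_, rfl⟩
  have N0 : (0 : ℝ) < N := by rw [hN]; positivity
  rw [mul_comm] at hl'
  rw [← hN] at hl hl'
  obtain ⟨p, hp⟩ := (Ch.list (a := a) l).mono (c' := N * δ) (by
    have : (l.map tr).sum = trc (l.map cost).sum := by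
      rw [map_list_sum, List.map_map]; congr 2; ext1; simp [trc_cost]
    rw [this, ← q, hl, map_smul, map_smul, Rat.smul_def]
    push_cast
    exact mul_le_mul_of_nonneg_left (by linarith) N0.le)
  refine ⟨N + N * δ, N * δ, by positivity, by positivity, by nlinarith [mul_pos N0 (mul_pos δ0 δ0)],
    _, _, ((P.list l').mul hp).cast ?_, ((P.list l).mul hp).cast (by module), fun i => ?_⟩
  · rw [← q, ← q, hl, hl']
    simp only [map_smul, map_add, a1.2, h1, a3, ← Rat.cast_smul_eq_qsmul ℝ, Rat.cast_natCast]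
    module
  · have pm : (l'.map (ev a i)).Perm (l.map (ev a i)) := perm_of_sum (by
      have : ∀ l : List (W d), ((l.map (ev a i)).map dl).sum = mp (ev a i) (l.map dl).sum :=
        fun l => by rw [map_list_sum, List.map_map, List.map_map]; congr 2; ext1; simp
      rw [this, this, hl, hl']
      simp [a2])
    have : ∀ l : List (W d), pr 1 ((l.map fun φ i => lt (ev a i φ)).prod i)
        = ((l.map (ev a i)).map fun x => pr 1 (lt x)).prod := fun l => by
      induction l with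
      | nil => exact map_one _
      | cons φ l ih => simp only [List.map_cons, List.prod_cons, Pi.mul_apply, map_mul, ih]
    rw [← pr_one, map_mul, map_inv, mul_inv_eq_one, Pi.mul_apply, Pi.mul_apply, map_mul, map_mul,
      this, this, (pm.map _).prod_eq' (List.pairwise_map.mpr (List.pairwise_of_forall
        fun x y => cen (k := 0) (Subgroup.mem_top _) _))]

end Vale.Agent.P058
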