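import Mathlib

namespace Vale.Agent.P058

open Finset

abbrev W (d : ℕ) := Option (Fin d) → ℝ
abbrev Cost (d : ℕ) := (Fin d → ℝ) → ℝ
abbrev F := FreeGroup {x : ℝ // x ≠ 0}

variable {ι : Type} {d : ℕ}

def ev (a : ι → Fin d → ℝ) (i : ι) : W d →+ ℝ where
  toFun φ := φ none + ∑ α, φ (some α) * a i α
  map_zero' := by simp
  map_add' φ ψ := by simp only [Pi.add_apply, add_mul, sum_add_distrib]; ring

lemma ev_apply (a : ι → Fin d → ℝ) (i : ι) (φ : W d) :
    ev a i φ = φ none + ∑ α, φ (some α) * a i α := rfl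

lemma ev_smul (a : ι → Fin d → ℝ) (i : ι) (t : ℝ) (φ : W d) : ev a i (t • φ) = t * ev a i φ := by
  simp only [ev_apply, Pi.smul_apply, smul_eq_mul, mul_add, mul_sum, mul_assoc]

def cost (φ : W d) : Cost d := fun v => (∑ α, φ (some α) * v α) ^ 2

def nrm (d : ℕ) : Cost d := fun v => ∑ α, v α ^ 2

def tr (φ : W d) : ℝ := ∑ α, φ (some α) ^ 2

def cst (d : ℕ) : ℝ →+ W d where
  toFun x := fun o => o.elim x fun _ => 0
  map_zero' := by ext (_ | _) <;> rfl
  map_add' x y := by ext (_ | _) <;> simp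

@[simp] lemma cst_some (x : ℝ) (α : Fin d) : cst d x (some α) = 0 := rfl
@[simp] lemma ev_cst (a : ι → Fin d → ℝ) (i : ι) (x : ℝ) : ev a i (cst d x) = x := by
  simp [ev_apply]; rfl
@[simp] lemma cost_cst_add (x : ℝ) (φ : W d) : cost (cst d x + φ) = cost φ := by
  ext v; simp [cost]
@[simp] lemma cost_zero : cost (0 : W d) = 0 := by ext v; simp [cost]
@[simp] lemma cost_cst (x : ℝ) : cost (cst d x) = 0 := by
  rw [← add_zero (cst d x), cost_cst_add, cost_zero]
lemma cost_smul (t : ℝ) (φ : W d) : cost (t • φ) = t ^ 2 • cost φ := by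
  ext v
  simp only [cost, Pi.smul_apply, smul_eq_mul, mul_assoc, ← mul_sum, mul_pow]

open Classical in
noncomputable def lt (x : ℝ) : F := if h : x = 0 then 1 else FreeGroup.of ⟨x, h⟩

@[simp] lemma lt_zero : lt 0 = 1 := dif_pos rfl
lemma lt_of (x : {x : ℝ // x ≠ 0}) : lt x = FreeGroup.of x := dif_neg x.2

lemma lift_lt {G : Type} [Group G] (f : ℝ → G) (h : f 0 = 1) (x : ℝ) :
    FreeGroup.lift (fun y : {x : ℝ // x ≠ 0} => f y) (lt x) = f x := by
  by_cases e : x = 0
  · simp [e, h]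
  · rw [lt_of ⟨x, e⟩, FreeGroup.lift_apply_of]

inductive P (a : ι → Fin d → ℝ) : Cost d → (ι → F) → Prop
  | diag (g : F) : P a 0 fun _ => g
  | col (φ : W d) : P a (cost φ) fun i => lt (ev a i φ)
  | mul {q q' x y} : P a q x → P a q' y → P a (q + q') (x * y)

variable {a : ι → Fin d → ℝ}

lemma P.cast {q q' : Cost d} {x : ι → F} (h : P a q x) (e : q = q') : P a q' x := e ▸ h

lemma P.one : P a 0 1 := P.diag 1

lemma P.pow {q : Cost d} {x : ι → F} (h : P a q x) (n : ℕ) : P a ((n : ℝ) • q) (x ^ n) := by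
  induction n with
  | zero => simpa using P.one
  | succ n ih => rw [pow_succ]; exact (ih.mul h).cast (by push_cast; module)

lemma P.conj {q : Cost d} {x : ι → F} (h : P a q x) (g : F) : P a q fun i => g * x i * g⁻¹ :=
  (((P.diag g).mul h).mul (P.diag g⁻¹)).cast (by simp)

lemma P.list (l : List (W d)) : P a (l.map cost).sum (l.map fun φ i => lt (ev a i φ)).prod := by
  induction l with
  | nil => exact P.one
  | cons φ l ih => exact (P.col φ).mul ih

lemma P_sum {κ : Type} (s : Finset κ) (f : κ → W d) : ∃ x, P a (∑ k ∈ s, cost (f k)) x := by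
  classical
  induction s using Finset.induction_on with
  | empty => exact ⟨_, P.one⟩
  | insert k s hk ih => obtain ⟨x, h⟩ := ih; rw [sum_insert hk]; exact ⟨_, (P.col _).mul h⟩

lemma sum_single (α : Fin d) (t : ℝ) (v : Fin d → ℝ) :
    ∑ β, (Pi.single (some α) t : W d) (some β) * v β = t * v α := by
  rw [sum_eq_single α (fun β _ h => by simp [h]) (by simp)]; simp

lemma P_iso {t : ℝ} (h : 0 ≤ t) : ∃ x, P a (t • nrm d) x := by
  obtain ⟨x, hx⟩ := P_sum (a := a) univ fun α : Fin d => Pi.single (some α) √t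
  refine ⟨x, hx.cast ?_⟩
  ext v
  simp only [Finset.sum_apply, cost, sum_single, mul_pow, Real.sq_sqrt h, nrm, Pi.smul_apply,
    smul_eq_mul, mul_sum]

def Ch (a : ι → Fin d → ℝ) (q : Cost d) (c : ℝ) : Prop := ∃ x, P a (c • nrm d - q) x

lemma Ch.add {q q' : Cost d} {c c' : ℝ} (h : Ch a q c) (h' : Ch a q' c') :
    Ch a (q + q') (c + c') := by
  obtain ⟨x, hx⟩ := h
  obtain ⟨y, hy⟩ := h'
  exact ⟨_, (hx.mul hy).cast (by module)⟩

lemma Ch.zero {c : ℝ} (h : 0 ≤ c) : Ch a 0 c := by simpa [Ch] using P_iso h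

lemma Ch.mono {q : Cost d} {c c' : ℝ} (h : Ch a q c) (e : c ≤ c') : Ch a q c' := by
  simpa using h.add (Ch.zero (sub_nonneg.mpr e))

lemma Ch.iso (c : ℝ) : Ch a (c • nrm d) c := ⟨1, by simpa using P.one⟩

lemma Ch.col (φ : W d) : Ch a (cost φ) (tr φ) := by
  obtain ⟨x, hx⟩ := P_sum (a := a) univ fun p : Fin d × Fin d =>
    (√2)⁻¹ • (Pi.single (some p.2) (φ (some p.1)) - Pi.single (some p.1) (φ (some p.2)) : W d)
  refine ⟨x, hx.cast ?_⟩
  ext v
  simp only [cost_smul, inv_pow, Real.sq_sqrt (zero_le_two), Finset.sum_apply, Pi.smul_apply,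
    smul_eq_mul, Pi.sub_apply]
  simp only [cost, Pi.sub_apply, sub_mul, sum_sub_distrib, sum_single, tr, nrm]
  rw [sq (∑ α, φ (some α) * v α), sum_mul_sum, sum_mul_sum, Fintype.sum_prod_type,
    ← sum_sub_distrib]
  have : ∑ i, ∑ j, φ (some i) ^ 2 * v j ^ 2 = ∑ i, ∑ j, φ (some j) ^ 2 * v i ^ 2 := sum_comm
  simp only [sum_sub_distrib, ← mul_sum, sub_sq, sum_add_distrib, mul_pow] at this ⊢
  rw [← this]
  simp only [mul_sum, ← sum_sub_distrib, ← sum_add_distrib]
  exact sum_congr rfl fun i _ => sum_congr rfl fun j _ => by ring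

lemma Ch.list (l : List (W d)) : Ch a (l.map cost).sum (l.map tr).sum := by
  induction l with
  | nil => exact Ch.zero le_rfl
  | cons φ l ih => exact (Ch.col φ).add ih

noncomputable def dil (n : ℕ) : F →* F := FreeGroup.lift fun y => lt y ^ n

lemma dil_lt (n : ℕ) (x : ℝ) : dil n (lt x) = lt x ^ n := lift_lt (fun x => lt x ^ n) (by simp) x

lemma P.dil {q : Cost d} {x : ι → F} (h : P a q x) (n : ℕ) :
    P a ((n : ℝ) • q) fun i => dil n (x i) := by
  induction h with
  | diag g => simpa using P.diag _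
  | col φ => simp only [dil_lt]; exact (P.col φ).pow n
  | mul _ _ h h' => simp only [Pi.mul_apply, map_mul]; exact (h.mul h').cast (by module)

noncomputable def scl (t : ℝ) : F →* F := FreeGroup.lift fun y => lt (t * y)

lemma P.scl {q : Cost d} {x : ι → F} (h : P a q x) (t : ℝ) :
    P a (t ^ 2 • q) fun i => scl t (x i) := by
  induction h with
  | diag g => simpa using P.diag _
  | col φ =>
    have := P.col (a := a) (t • φ)
    simp only [ev_smul, cost_smul] at this
    simpa only [P058.scl, lift_lt (fun x => lt (t * x)) (by simp)] using this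
  | mul _ _ h h' => simp only [Pi.mul_apply, map_mul]; exact (h.mul h').cast (by module)

end Vale.Agent.P058
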