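import Mathlib

namespace Vale.Agent.P058

open scoped TensorProduct

/-- `A` is Ramsey: for each number of colours there is a dimension `D` such that every colouring
of `ℝ^D` is constant on a congruent copy of `A`. -/
def Ramsey {d : ℕ} (A : Finset (EuclideanSpace ℝ (Fin d))) : Prop :=
  ∀ r : ℕ, 2 ≤ r → ∃ D : ℕ, 1 ≤ D ∧ ∀ c : EuclideanSpace ℝ (Fin D) → Fin r,
    ∃ f : EuclideanSpace ℝ (Fin d) → EuclideanSpace ℝ (Fin D),
      (∀ x ∈ A, ∀ y ∈ A, dist (f x) (f y) = dist x y) ∧ ∃ k : Fin r, ∀ x ∈ A, c (f x) = k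

/-- The isometries of `ℝ^n` mapping `X` onto itself act transitively on `X`. -/
def TransitiveSet {n : ℕ} (X : Finset (EuclideanSpace ℝ (Fin n))) : Prop :=
  ∀ x ∈ X, ∀ y ∈ X, ∃ g : EuclideanSpace ℝ (Fin n) ≃ᵢ EuclideanSpace ℝ (Fin n),
    g '' (X : Set (EuclideanSpace ℝ (Fin n))) = X ∧ g x = y

/-- `A` is congruent to a subset of a finite transitive set. -/
def Subtransitive {d : ℕ} (A : Finset (EuclideanSpace ℝ (Fin d))) : Prop :=
  ∃ (n : ℕ) (X : Finset (EuclideanSpace ℝ (Fin n))), TransitiveSet X ∧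
    ∃ f : EuclideanSpace ℝ (Fin d) → EuclideanSpace ℝ (Fin n),
      (∀ x ∈ A, ∀ y ∈ A, dist (f x) (f y) = dist x y) ∧ ∀ x ∈ A, f x ∈ X

/-- The tensor condition over a subfield `K` of `ℝ`: a `(d+1) × (d+1)` matrix `P` over `K ⊗[ℚ] K`
with `(p ⊗ 1)ᵀ P (1 ⊗ p) = 0` for `p = (1, x)`, `x ∈ A`, whose `d × d` spatial block is sent to the
identity matrix by the multiplication map `K ⊗[ℚ] K → K`. -/
def TensorCond {d : ℕ} (K : Subfield ℝ) (A : Finset (EuclideanSpace ℝ (Fin d))) : Prop :=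
  ∃ P : Option (Fin d) → Option (Fin d) → K ⊗[ℚ] K,
    (∀ x ∈ A, ∀ p : Option (Fin d) → K, p none = 1 → (∀ α, (p (some α) : ℝ) = x α) →
      ∑ α, ∑ β, (p α ⊗ₜ[ℚ] (1 : K)) * P α β * ((1 : K) ⊗ₜ[ℚ] p β) = 0) ∧
    ∀ α β : Fin d, LinearMap.mul' ℚ K (P (some α) (some β)) = if α = β then 1 else 0

end Vale.Agent.P058
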