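import Vale.Agent.P058.Basic

namespace Vale.Agent.P058

open Filter

lemma min_idem {S : Type} [Nonempty S] [Semigroup S] [TopologicalSpace S] [CompactSpace S]
    [T2Space S] (hc : ∀ r : S, Continuous (· * r)) :
    ∃ u : S, u * u = u ∧ ∀ x, ∃ y, y * (x * u) = u := by
  obtain ⟨N, hN⟩ : ∃ N, Minimal (· ∈ {N : Set S | IsClosed N ∧ N.Nonempty ∧
      ∀ m, ∀ m' ∈ N, m * m' ∈ N}) N := by
    refine zorn_superset _ fun c hcs hch => ⟨⋂₀ c, ⟨isClosed_sInter fun t ht => (hcs ht).1, ?_,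
      fun m m' hm' t ht => (hcs ht).2.2 m m' (hm' t ht)⟩, fun s hs => Set.sInter_subset_of_mem hs⟩
    obtain rfl | hn := c.eq_empty_or_nonempty
    · simp
    have := hn.coe_sort
    rw [Set.sInter_eq_iInter]
    exact IsCompact.nonempty_iInter_of_directed_nonempty_isCompact_isClosed _
      (DirectedOn.directed_val (IsChain.directedOn hch.symm)) (fun i => (hcs i.prop).2.1)
      (fun i => (hcs i.prop).1.isCompact) fun i => (hcs i.prop).1
  obtain ⟨h1, h2, h3⟩ := hN.prop
  obtain ⟨u, hu, e⟩ := exists_idempotent_in_compact_subsemigroup hc N h2 h1.isCompact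
    fun x _ y hy => h3 x y hy
  refine ⟨u, e, fun x => ?_⟩
  have : Set.range (· * (x * u)) = N := by
    apply hN.eq_of_subset
    · refine ⟨(isCompact_range (hc _)).isClosed, Set.range_nonempty _, ?_⟩
      rintro m _ ⟨m', rfl⟩
      exact ⟨m * m', mul_assoc _ _ _⟩
    · rintro _ ⟨m, rfl⟩
      exact h3 _ _ (h3 _ _ hu)
  rw [← this] at hu
  exact hu

attribute [local instance] Ultrafilter.mul Ultrafilter.semigroup

abbrev U := Ultrafilter (FreeMonoid ℝ)

variable {ι : Type} {d : ℕ} {a : ι → Fin d → ℝ}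

def Om (a : ι → Fin d → ℝ) (q : Cost d) : Set (ι → U) :=
  {x | ∀ B : ι → Set (FreeMonoid ℝ), (∀ i, B i ∈ x i) →
    ∃ l : List (W d), (l.map cost).sum = q ∧ ∀ i, FreeMonoid.ofList (l.map (ev a i)) ∈ B i}

lemma Om_mul {q q' : Cost d} {x y : ι → U} (h : x ∈ Om a q) (h' : y ∈ Om a q') :
    x * y ∈ Om a (q + q') := fun B hB => by
  obtain ⟨l, e, hl⟩ := h (fun i => {m | ∀ᶠ m' in y i, m * m' ∈ B i})
    fun i => (Ultrafilter.eventually_mul _ _ _).mp (hB i)
  obtain ⟨l', e', hl'⟩ := h' _ hl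
  exact ⟨l ++ l', by simp [e, e'], fun i => by simpa using hl' i⟩

lemma Om_col (φ : W d) : (fun i => pure (FreeMonoid.of (ev a i φ))) ∈ Om a (cost φ) :=
  fun B hB => ⟨[φ], by simp, hB⟩

variable [Finite ι]

lemma Om_diag (p : U) : (fun _ => p) ∈ Om a 0 := fun B hB => by
  obtain ⟨w, hw⟩ := Ultrafilter.nonempty_of_mem (f := p) (Filter.iInter_mem.mpr hB)
  refine ⟨w.toList.map (cst d), List.sum_eq_zero (by simp), fun i => ?_⟩
  simpa [List.map_map, Function.comp_def] using Set.mem_iInter.mp hw i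

lemma Om_closed (q : Cost d) : IsClosed (Om a q) := by
  rw [← isOpen_compl_iff, isOpen_iff_forall_mem_open]
  intro x hx
  obtain ⟨B, hB⟩ := not_forall.mp hx
  refine ⟨⋂ i, (fun x => x i) ⁻¹' {p | B i ∈ p}, fun y hy h => hB fun _ => h B
    (Set.mem_iInter.mp hy), isOpen_iInter_of_finite fun i =>
    (ultrafilter_isOpen_basic _).preimage (continuous_apply i),
    Set.mem_iInter.mpr (Classical.not_imp.mp hB).1⟩

def Gp (u : U) : Type := {g : U // u * g = g ∧ g * u = g}

@[instance_reducible] noncomputable def gp {u : U} (h : u * u = u) (h' : ∀ x, ∃ y, y * (x * u) = u) : Group (Gp u) :=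
  letI : Mul (Gp u) := ⟨fun g g' => ⟨g.1 * g'.1, by rw [← mul_assoc, g.2.1],
    by rw [mul_assoc, g'.2.2]⟩⟩
  letI : One (Gp u) := ⟨⟨u, h, h⟩⟩
  letI : Inv (Gp u) := ⟨fun g => ⟨u * (h' g.1).choose * u, by rw [← mul_assoc, ← mul_assoc, h],
    by rw [mul_assoc, h]⟩⟩
  Group.ofLeftAxioms (fun _ _ _ => Subtype.ext (mul_assoc _ _ _)) (fun g => Subtype.ext g.2.1)
    fun g => Subtype.ext (by
      have := (congrArg (_ * ·) g.2.2).symm.trans (h' g.1).choose_spec
      show u * _ * u * g.1 = u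
      rw [mul_assoc _ u, g.2.1, mul_assoc, this, h])

theorem mono_of_toggle (H : ∀ T : Finset ℝ, (∀ t ∈ T, 0 < t) → ∃ x, ∀ t ∈ T, P a (t • nrm d) x)
    {κ : Type} [Finite κ] (c : List ℝ → κ) :
    ∃ l : List (W d), (l.map cost).sum = nrm d ∧ ∃ k, ∀ i, c (l.map (ev a i)) = k := by
  obtain ⟨u, hu, hu'⟩ := min_idem (S := U) Ultrafilter.continuous_mul_left
  letI := gp hu hu'
  obtain ⟨h, hh⟩ : ∃ h : ℝ → Gp u, ∀ x, (h x).1 = u * pure (FreeMonoid.of x) * u :=
    ⟨fun x => ⟨_, by rw [← mul_assoc, ← mul_assoc, hu], by rw [mul_assoc, hu]⟩, fun _ => rfl⟩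
  obtain ⟨e, he⟩ : ∃ e : F →* Gp u, ∀ x, e (lt x) = h x * (h 0)⁻¹ :=
    ⟨_, lift_lt (fun x => h x * (h 0)⁻¹) (mul_inv_cancel _)⟩
  have key : ∀ q x, P a q x → (fun i => (e (x i)).1) ∈ Om a q := fun q x hx => by
    induction hx with
    | diag g => exact Om_diag _
    | col φ =>
      have := Om_mul (Om_mul (Om_mul (Om_diag (a := a) u) (Om_col φ)) (Om_diag u))
        (Om_diag ((h 0)⁻¹).1)
      simp only [zero_add, add_zero] at this
      convert this using 2 with i
      rw [he]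
      exact congrArg (· * ((h 0)⁻¹).1) (hh _)
    | mul _ _ h h' => simp only [Pi.mul_apply, map_mul]; exact Om_mul h h'
  have cont : ∀ r : ι → U, Continuous (· * r) := fun r => continuous_pi fun i =>
    (Ultrafilter.continuous_mul_left (r i)).comp (continuous_apply i)
  have cl : IsClosed (⋂ t : {t : ℝ // 0 < t}, Om a (t.1 • nrm d)) :=
    isClosed_iInter fun _ => Om_closed _
  obtain ⟨x, -, hx⟩ := isCompact_univ.inter_iInter_nonempty
    (fun t : {t : ℝ // 0 < t} => Om a (t.1 • nrm d)) (fun _ => Om_closed _) fun T => by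
      obtain ⟨x, hx⟩ := H (T.map (Function.Embedding.subtype _)) (by simp +contextual)
      exact ⟨_, trivial, Set.mem_iInter₂.mpr fun t ht => key _ _ (hx _ (Finset.mem_map_of_mem _ ht))⟩
  obtain ⟨v, ⟨hv, v1⟩, v2⟩ := exists_idempotent_in_compact_subsemigroup cont
    ((⋂ t : {t : ℝ // 0 < t}, Om a (t.1 • nrm d)) ∩ {x | x * (fun _ => u) = x})
    ⟨x * fun _ => u, Set.mem_iInter.mpr fun t => by
      simpa using Om_mul (Set.mem_iInter.mp hx t) (Om_diag u), funext fun i => by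
      show x i * u * u = x i * u
      rw [mul_assoc, hu]⟩
    (cl.inter (isClosed_eq (cont _) continuous_id)).isCompact fun x hx y hy =>
      ⟨Set.mem_iInter.mpr fun t => by
        have := Om_mul (Set.mem_iInter.mp hx.1 ⟨_, half_pos t.2⟩)
          (Set.mem_iInter.mp hy.1 ⟨_, half_pos t.2⟩)
        rwa [← add_smul, add_halves] at this, by
        show x * y * _ = _
        rw [mul_assoc, hy.2]⟩
  have fin := Om_mul (Om_diag (a := a) u) (Set.mem_iInter.mp hv ⟨1, one_pos⟩)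
  have e : (fun _ => u) * v = fun _ => u := funext fun i => by
    obtain ⟨y, hy⟩ := hu' (v i)
    rw [show v i * u = v i from congrFun v1 i] at hy
    show u * v i = u
    rw [← hy, mul_assoc, show v i * v i = v i from congrFun v2 i]
  rw [e, zero_add, one_smul] at fin
  obtain ⟨k, hk⟩ := (Ultrafilter.map (fun w => c w.toList) u).eq_pure_of_finite
  obtain ⟨l, h1, h2⟩ := fin (fun _ => (fun w => c w.toList) ⁻¹' {k}) fun _ => by
    rw [← Ultrafilter.mem_map, hk]; simp
  exact ⟨l, h1, k, h2⟩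

end Vale.Agent.P058
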