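import Vale.Agent.P058.Tens
import Vale.Agent.P058.Ultra
import Vale.Agent.P058.Defs

namespace Vale.Agent.P058

open Finset
open scoped TensorProduct InnerProductSpace

abbrev E (d : ℕ) := EuclideanSpace ℝ (Fin d)

variable {ι : Type} {d D : ℕ}

def co (a : ι → E d) : ι → Fin d → ℝ := fun i α => a i α

lemma copy [Fintype ι] (i0 : ι) (a : ι → E d) (b : ι → E D)
    (h : ∀ i j, dist (b i) (b j) = dist (a i) (a j)) : ∃ x : Fin D ⊕ Fin d → W d,
      (∀ i t, ev (co a) i (x (.inl t)) = b i t) ∧ (∀ i s, ev (co a) i (x (.inr s)) = 0) ∧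
      ∀ α β : Fin d, ∑ t, x t (some α) * x t (some β) = if α = β then 1 else 0 := by
  classical
  obtain ⟨T, hT⟩ : ∃ T, T = Fintype.linearCombination ℝ fun i => a i - a i0 := ⟨_, rfl⟩
  obtain ⟨T', hT'⟩ : ∃ T, T = Fintype.linearCombination ℝ fun i => b i - b i0 := ⟨_, rfl⟩
  have g : ∀ c c', ⟪T' c, T' c'⟫_ℝ = ⟪T c, T c'⟫_ℝ := fun c c' => by
    simp only [hT, hT', Fintype.linearCombination_apply, sum_inner, inner_sum, inner_smul_left,
      inner_smul_right, real_inner_eq_norm_mul_self_add_norm_mul_self_sub_norm_sub_mul_self_div_two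
        (_ - _), sub_sub_sub_cancel_right, ← dist_eq_norm, h]
  obtain ⟨s, hs⟩ := T.rangeRestrict.exists_rightInverse_of_surjective T.range_rangeRestrict
  have hs' : ∀ u, T (s u) = u := fun u => congrArg Subtype.val (LinearMap.congr_fun hs u)
  obtain ⟨f, hf⟩ : ∃ f : E d →ₗ[ℝ] E D,
    f = T' ∘ₗ s ∘ₗ (LinearMap.range T).orthogonalProjectionOnto.toLinearMap := ⟨_, rfl⟩
  obtain ⟨k, hk⟩ : ∃ k : E d →ₗ[ℝ] E d,
    k = LinearMap.id - (LinearMap.range T).starProjection.toLinearMap := ⟨_, rfl⟩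
  have e : ∀ i, a i - a i0 = T (Pi.single i 1) := fun i => by simp [hT]
  have p : ∀ c, (LinearMap.range T).starProjection (T c) = T c := fun c =>
    Submodule.starProjection_eq_self_iff.mpr ⟨c, rfl⟩
  have f1 : ∀ i, f (a i - a i0) = b i - b i0 := fun i => by
    rw [e, show b i - b i0 = T' (Pi.single i 1) by simp [hT'], hf, ← sub_eq_zero,
      ← inner_self_eq_zero (𝕜 := ℝ)]
    simp only [LinearMap.comp_apply, ← map_sub]
    rw [g, map_sub, hs', inner_self_eq_zero, sub_eq_zero]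
    exact p _
  have k1 : ∀ i, k (a i - a i0) = 0 := fun i => by rw [e, hk]; simp [p]
  have ex : ∀ {n : ℕ} (f : E d →ₗ[ℝ] E n) (v : E d) t,
      ∑ α, f (EuclideanSpace.single α 1) t * v α = f v t := fun f v t => by
    conv_rhs => rw [← (EuclideanSpace.basisFun (Fin d) ℝ).sum_repr v]
    simp [mul_comm]
  refine ⟨Sum.elim (fun t o => o.elim (b i0 t - f (a i0) t) fun α => f (EuclideanSpace.single α 1) t)
    fun t o => o.elim (-k (a i0) t) fun α => k (EuclideanSpace.single α 1) t,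
    fun i t => ?_, fun i t => ?_, fun α β => ?_⟩
  · have := congrArg (· t) (f1 i)
    simp only [map_sub, PiLp.sub_apply] at this
    simp only [ev_apply, Sum.elim_inl, Option.elim, co, ex]
    linarith
  · have := congrArg (· t) (k1 i)
    simp only [map_sub, PiLp.sub_apply, PiLp.zero_apply] at this
    simp only [ev_apply, Sum.elim_inr, Option.elim, co, ex]
    linarith
  · have : ∀ v w, ⟪f v, f w⟫_ℝ + ⟪k v, k w⟫_ℝ = ⟪v, w⟫_ℝ := fun v w => by
      have o := fun v w => (LinearMap.range T).starProjection_inner_eq_zero v _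
        ((LinearMap.range T).starProjection_apply_mem w)
      have o1 := o v w
      have o2 := o w v
      rw [real_inner_comm] at o2
      simp only [hf, hk, LinearMap.comp_apply, g, hs', LinearMap.sub_apply, LinearMap.id_apply,
        ContinuousLinearMap.coe_coe, ← Submodule.starProjection_apply]
      simp only [inner_sub_left, inner_sub_right] at *
      linarith
    have := this (EuclideanSpace.single β 1) (EuclideanSpace.single α 1)
    rw [EuclideanSpace.inner_single_left, PiLp.inner_apply, PiLp.inner_apply] at this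
    simpa [Fintype.sum_sum_type, Pi.single_apply, eq_comm] using this

noncomputable def tau (y : E D) : ℝ ⊗[ℚ] ℝ := ∑ t, y t ⊗ₜ y t

lemma copyP [Fintype ι] (i0 : ι) (a : ι → E d) (b : ι → E D)
    (h : ∀ i j, dist (b i) (b j) = dist (a i) (a j)) : ∃ P, (∀ i, evP (co a) i P = tau (b i)) ∧
      ∀ α β : Fin d, LinearMap.mul' ℚ ℝ (P (some α) (some β)) = if α = β then 1 else 0 := by
  obtain ⟨x, h1, h2, h3⟩ := copy i0 a b h
  refine ⟨fun α β => ∑ t, x t α ⊗ₜ x t β, fun i => ?_, fun α β => by rw [← h3, map_sum]; rfl⟩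
  have : evP (co a) i (fun α β => ∑ t, x t α ⊗ₜ x t β)
      = ∑ t, ev (co a) i (x t) ⊗ₜ ev (co a) i (x t) := by
    simp only [evP, mul_sum, sum_mul, Algebra.TensorProduct.tmul_mul_tmul, ev_pt,
      TensorProduct.sum_tmul, TensorProduct.tmul_sum, mul_one, one_mul, mul_comm (pt _ _ _)]
    rw [sum_comm]
    conv_rhs => rw [sum_comm]
    exact sum_congr rfl fun _ _ => sum_comm
  rw [this]
  simp [Fintype.sum_sum_type, h1, h2, tau]

noncomputable def cP (d : ℕ) (z : ℝ ⊗[ℚ] ℝ) : Option (Fin d) → Option (Fin d) → ℝ ⊗[ℚ] ℝ :=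
  fun α β => if α = none ∧ β = none then z else 0

lemma evP_cP (a : ι → Fin d → ℝ) (i : ι) (z : ℝ ⊗[ℚ] ℝ) : evP a i (cP d z) = z := by
  simp [evP, cP, Fintype.sum_option, pt, ← Algebra.TensorProduct.one_def]

noncomputable def evL (a : ι → Fin d → ℝ) (i : ι) :
    (Option (Fin d) → Option (Fin d) → ℝ ⊗[ℚ] ℝ) →ₗ[ℚ] ℝ ⊗[ℚ] ℝ where
  toFun := evP a i
  map_add' P Q := by simp [evP, mul_add, add_mul, sum_add_distrib]
  map_smul' q P := by simp [evP, smul_sum]

noncomputable def mL (d : ℕ) :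
    (Option (Fin d) → Option (Fin d) → ℝ ⊗[ℚ] ℝ) →ₗ[ℚ] (Fin d → Fin d → ℝ) where
  toFun P α β := LinearMap.mul' ℚ ℝ (P (some α) (some β))
  map_add' P Q := by ext; simp
  map_smul' q P := by ext; simp

theorem necessary {A : Finset (E d)} (h : Ramsey A) : TR (co fun x : A => x.1) := by
  classical
  by_contra hn
  rcases isEmpty_or_nonempty A with hA | ⟨⟨i0⟩⟩
  · exact hn ⟨fun α β => if α = β then 1 else 0, fun i => hA.elim i, fun α β => by
      split_ifs <;> simp_all [Algebra.TensorProduct.one_def]⟩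
  obtain ⟨Λ, h1, h2⟩ := Submodule.exists_le_ker_of_notMem
    (p := LinearMap.range ((LinearMap.pi (evL (co fun x : A => x.1))).prod (mL d)))
    (v := (0, fun α β => if α = β then 1 else 0)) (by
      rintro ⟨P, hP⟩
      exact hn ⟨P, congrFun (congrArg Prod.fst hP), fun α β =>
        congrFun (congrFun (congrArg Prod.snd hP) α) β⟩)
  obtain ⟨γ, hγ⟩ : ∃ γ, γ = Λ (0, fun α β => if α = β then 1 else 0) := ⟨_, rfl⟩
  rw [← hγ] at h1
  obtain ⟨s, hs⟩ : ∃ s, s = Fintype.card A := ⟨_, rfl⟩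
  have s0 : 0 < s := hs ▸ Fintype.card_pos_iff.mpr ⟨i0⟩
  have : NeZero (2 * s) := ⟨by omega⟩
  obtain ⟨z, hz⟩ : ∃ z : A → ℝ ⊗[ℚ] ℝ → ℚ, ∀ i y, z i y = s * (Λ (Pi.single i y, 0) / γ) :=
    ⟨_, fun _ _ => rfl⟩
  have zs : ∀ y : A → ℝ ⊗[ℚ] ℝ, ∑ i, z i (y i) = s * (Λ (y, 0) / γ) := fun y => by
    simp only [hz, ← mul_sum, ← sum_div, ← map_sum]
    congr 3
    exact Prod.ext (by rw [Prod.fst_sum]; exact univ_sum_single y) (by simp [Prod.snd_sum])
  obtain ⟨D, -, hD⟩ := h (Fintype.card (A → ZMod (2 * s)) + 2) (by omega)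
  obtain ⟨f, f1, k, f2⟩ := hD fun y =>
    (Fintype.equivFin _ fun i => (⌊z i (tau y)⌋ : ZMod (2 * s))).castAdd 2
  have f3 : ∀ i j : A, (⌊z i (tau (f j))⌋ : ZMod (2 * s)) = ⌊z i (tau (f i0))⌋ := fun i j =>
    congrFun ((Fintype.equivFin _).injective (Fin.castAdd_injective _ _
      ((f2 _ j.2).trans (f2 _ i0.2).symm))) i
  obtain ⟨P, p1, p2⟩ := copyP i0 (fun x : A => x.1) (fun x => f x) fun i j => f1 _ i.2 _ j.2
  have a1 : ∑ i, z i (tau (f i)) = -s := by
    have := h2 ⟨P, rfl⟩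
    rw [LinearMap.mem_ker, show (LinearMap.pi (evL (co fun x : A => x.1))).prod (mL d) P
      = ((fun i : A => tau (f i)), 0) + (0, fun α β => if α = β then 1 else 0) from
        Prod.ext ((funext p1).trans (add_zero _).symm) ((funext₂ p2).trans (zero_add _).symm), map_add, ← hγ] at this
    rw [zs, eq_neg_of_add_eq_zero_left this]; field_simp
  have a2 : ∑ i, z i (tau (f i0)) = 0 := by
    have := h2 ⟨cP d (tau (f i0)), rfl⟩
    rw [LinearMap.mem_ker, show (LinearMap.pi (evL (co fun x : A => x.1))).prod (mL d) (cP d (tau (f i0)))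
      = ((fun _ : A => tau (f i0)), 0) from Prod.ext (funext fun i => evP_cP _ i _)
        (by ext; simp [mL, cP])] at this
    rw [zs fun _ => tau (f i0), this]; simp
  have dv : ((2 * s : ℕ) : ℤ) ∣ ∑ i, (⌊z i (tau (f i0))⌋ - ⌊z i (tau (f i))⌋) :=
    dvd_sum fun i _ => (ZMod.intCast_eq_intCast_iff_dvd_sub _ _ _).mp (f3 i i)
  have ne : (univ : Finset A).Nonempty := ⟨i0, mem_univ _⟩
  have b1 := sum_lt_sum_of_nonempty ne (f := fun i => z i (tau (f i0)) - 1 - z i (tau (f i)))
    (g := fun i => ((⌊z i (tau (f i0))⌋ - ⌊z i (tau (f i))⌋ : ℤ) : ℚ)) fun i _ => by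
      push_cast; linarith [Int.sub_one_lt_floor (z i (tau (f i0))), Int.floor_le (z i (tau (f i)))]
  have b2 := sum_lt_sum_of_nonempty ne (g := fun i => z i (tau (f i0)) + 1 - z i (tau (f i)))
    (f := fun i => ((⌊z i (tau (f i0))⌋ - ⌊z i (tau (f i))⌋ : ℤ) : ℚ)) fun i _ => by
      push_cast; linarith [Int.sub_one_lt_floor (z i (tau (f i))), Int.floor_le (z i (tau (f i0)))]
  rw [← Int.cast_sum] at b1 b2
  simp only [sum_sub_distrib (G := ℚ), sum_add_distrib, a1, a2, sum_const, card_univ, ← hs,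
    nsmul_eq_mul, mul_one] at b1 b2
  have c1 : 0 < ∑ i, (⌊z i (tau (f i0))⌋ - ⌊z i (tau (f i))⌋) := by
    rw [← Int.cast_pos (R := ℚ)]; linarith
  have c2 : (((2 * s : ℕ) : ℤ) : ℚ) ≤ _ := Int.cast_le.mpr (Int.le_of_dvd c1 dv)
  rw [Int.cast_natCast, Nat.cast_mul, Nat.cast_two] at c2
  linarith

lemma getD_sum (f g : W d → ℝ) (l : List (W d)) : ∑ t : Fin (l.length + 1),
    ((l.map f).getD t 0 - (l.map g).getD t 0) ^ 2 = (l.map fun φ => (f φ - g φ) ^ 2).sum := by
  induction l with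
  | nil => simp
  | cons φ l ih => rw [List.length_cons, Fin.sum_univ_succ, List.map_cons (f := fun φ => _ ^ 2),
      List.sum_cons, ← ih]; rfl

theorem sufficient {A : Finset (E d)} (h : TR (co fun x : A => x.1)) : Ramsey A := fun r _ => by
  classical
  by_contra hn
  push Not at hn
  choose C hC using fun n : ℕ => hn (n + 1) (by omega)
  have inj : Function.Injective (co fun x : A => x.1) := fun x y e =>
    Subtype.ext (by ext α; exact congrFun e α)
  obtain ⟨l, h1, k, h2⟩ := mono_of_toggle (toggle inj (rel_one inj (arel h)))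
    fun w => (fun n => C n (WithLp.toLp 2 fun t => w.getD t 0)) w.length
  replace h2 := fun i => (congrArg (fun n => C n (WithLp.toLp 2 fun t =>
    (l.map (ev (co fun x : A => x.1) i)).getD t 0)) (List.length_map _).symm).trans (h2 i)
  obtain ⟨x, hx, e⟩ := hC l.length (fun x => if hx : x ∈ A then WithLp.toLp 2 fun t =>
    (l.map (ev (co fun x : A => x.1) ⟨x, hx⟩)).getD t 0 else 0) (fun x hx y hy => by
      rw [dif_pos hx, dif_pos hy, EuclideanSpace.dist_eq, EuclideanSpace.dist_eq]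
      simp only [Real.dist_eq, sq_abs, getD_sum]
      have e := congrFun h1 fun α => x α - y α
      rw [show (l.map cost).sum _ = _ from map_list_sum (Pi.evalAddMonoidHom _ _) _, nrm,
        List.map_map] at e
      rw [← e]
      congr 3
      ext φ
      simp only [ev_apply, cost, co, mul_sub, sum_sub_distrib, Function.comp,
        Pi.evalAddMonoidHom_apply]
      ring) k
  exact e (by rw [dif_pos hx]; exact h2 _)

end Vale.Agent.P058
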