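import Vale.Agent.P058.Geo

namespace Vale.Agent.P058

open Finset
open scoped TensorProduct

variable {d n : ℕ}

lemma avg {X : Finset (E n)} (hX : TransitiveSet X) : ∃ (G : Type) (_ : Fintype G) (_ : Nonempty G)
    (π : G → X → X), (∀ g x y, dist (π g x : E n) (π g y) = dist (x : E n) y) ∧
    ∀ {M : Type} [AddCommMonoid M] (h : X → M) (x y : X), ∑ g, h (π g x) = ∑ g, h (π g y) := by
  classical
  obtain ⟨G, hG⟩ : ∃ G : Subgroup (Equiv.Perm X),
      ∀ g, g ∈ G ↔ ∀ x y, dist (g x : E n) (g y) = dist (x : E n) y :=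
    ⟨⟨⟨⟨{g | ∀ x y, dist (g x : E n) (g y) = dist (x : E n) y}, fun {a b} ha hb x y =>
      (ha _ _).trans (hb x y)⟩, fun _ _ => rfl⟩, fun {a} ha x y => by
        rw [← ha]; simp⟩, fun _ => Iff.rfl⟩
  refine ⟨G, inferInstance, inferInstance, fun g x => g.1 x, fun g => (hG _).mp g.2,
    fun h x y => ?_⟩
  obtain ⟨g, h1, h2⟩ := hX x x.2 y y.2
  have m : ∀ z : X, g z ∈ X := fun z => by
    rw [← mem_coe, ← h1]; exact ⟨z, z.2, rfl⟩
  refine (Fintype.sum_equiv (Equiv.mulRight ⟨Equiv.ofBijective (fun z => ⟨g z, m z⟩)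
    (Finite.injective_iff_bijective.mp fun z z' e => Subtype.ext (g.injective
      (congrArg Subtype.val e))), (hG _).mpr fun z z' => g.dist_eq _ _⟩) _ _ fun k => ?_).symm
  exact congrArg (fun z => h (k.1 z)) (Subtype.ext h2.symm)

theorem sub_TR {A : Finset (E d)} (h : Subtransitive A) : TR (co fun x : A => x.1) := by
  obtain ⟨n, X, hX, f, f1, f2⟩ := h
  rcases isEmpty_or_nonempty A with hA | ⟨⟨i0⟩⟩
  · exact ⟨fun α β => if α = β then 1 else 0, fun i => hA.elim i, fun α β => by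
      split_ifs <;> simp_all [Algebra.TensorProduct.one_def]⟩
  obtain ⟨G, _, _, π, h1, h2⟩ := avg hX
  obtain ⟨y, hy⟩ : ∃ y : G → A → E n, ∀ g i, y g i = π g ⟨f i, f2 _ i.2⟩ := ⟨_, fun _ _ => rfl⟩
  have e : ∀ i, ∑ g, tau (y g i) = ∑ g, tau (y g i0) := fun i => by
    simp only [hy]
    exact h2 (fun x => tau x.1) _ _
  choose P p1 p2 using fun g : G => copyP i0 (fun x : A => x.1) (y g)
    fun i j => by rw [hy, hy, h1]; exact f1 _ i.2 _ j.2
  have c : (Fintype.card G : ℚ) ≠ 0 := by exact_mod_cast Fintype.card_ne_zero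
  refine ⟨(Fintype.card G : ℚ)⁻¹ • (∑ g, P g - cP d (∑ g, tau (y g i0))),
    fun i => ?_, fun α β => ?_⟩
  · have : ∀ P, evP (co fun x : A => x.1) i P = evL (co fun x : A => x.1) i P := fun _ => rfl
    rw [this, map_smul, map_sub, map_sum]
    simp only [← this, evP_cP, p1]
    rw [e, sub_self, smul_zero]
  · simp only [Pi.smul_apply, Pi.sub_apply, Finset.sum_apply, cP, reduceCtorEq, and_self, if_false,
      sub_zero, map_smul, map_sum, p2, sum_const, card_univ]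
    rw [← Nat.cast_smul_eq_nsmul ℚ, smul_smul, inv_mul_cancel₀ c, one_smul]

theorem TR_of_K (K : Subfield ℝ) {A : Finset (E d)} (hA : ∀ x ∈ A, ∀ α, x α ∈ K)
    (h : TensorCond K A) : TR (co fun x : A => x.1) := by
  obtain ⟨P, h1, h2⟩ := h
  obtain ⟨φ, hφ⟩ : ∃ φ : K ⊗[ℚ] K →ₐ[ℚ] ℝ ⊗[ℚ] ℝ, ∀ x y, φ (x ⊗ₜ y) = (x : ℝ) ⊗ₜ (y : ℝ) :=
    ⟨Algebra.TensorProduct.map K.subtype.toRatAlgHom K.subtype.toRatAlgHom, fun _ _ => rfl⟩
  refine ⟨fun α β => φ (P α β), fun i => ?_, fun α β => ?_⟩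
  · have := congrArg φ (h1 i i.2 (fun o => o.elim 1 fun α => ⟨_, hA _ i.2 α⟩) rfl fun _ => rfl)
    simp only [map_sum, map_mul, hφ, map_zero] at this
    rw [← this]
    exact sum_congr rfl fun α _ => sum_congr rfl fun β _ => by
      rcases α with _ | α <;> rcases β with _ | β <;> rfl
  · have : ∀ z, LinearMap.mul' ℚ ℝ (φ z) = LinearMap.mul' ℚ K z := fun z => by
      induction z using TensorProduct.induction_on with
      | zero => simp
      | tmul x y => simp [hφ]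
      | add x y h1 h2 => simp [h1, h2]
    rw [this, h2]
    split_ifs <;> simp

theorem K_of_TR (K : Subfield ℝ) {A : Finset (E d)} (h : TR (co fun x : A => x.1)) :
    TensorCond K A := by
  obtain ⟨P, h1, h2⟩ := h
  obtain ⟨r, hr⟩ := (Algebra.linearMap K ℝ).exists_leftInverse_of_injective
    (LinearMap.ker_eq_bot.mpr Subtype.val_injective)
  have r1 : r 1 = 1 := by simpa using LinearMap.congr_fun hr 1
  have b := Module.Basis.ofVectorSpace K ℝ
  obtain ⟨σ, hσ⟩ : ∃ σ : ℝ → ℝ →ₗ[K] K ⊗[ℚ] K, ∀ y k, σ y (b k) = 1 ⊗ₜ r (b k * y) :=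
    ⟨fun y => b.constr ℕ fun k => 1 ⊗ₜ r (b k * y), fun y k => by simp⟩
  have s1 : ∀ y y', σ (y + y') = σ y + σ y' := fun y y' =>
    b.ext fun k => by simp [hσ, mul_add, TensorProduct.tmul_add]
  have s2 : ∀ (q : ℚ) x y, σ (q • y) x = q • σ y x := fun q x y =>
    map_rat_smul (AddMonoidHom.mk' (fun y => σ y x) fun y y' => by rw [s1]; rfl) q y
  have s3 : ∀ (g : K) y, σ (y * g) = LinearMap.mulRight K ((1 : K) ⊗ₜ[ℚ] g) ∘ₗ σ y := fun g y =>
    b.ext fun k => by
      rw [hσ, LinearMap.comp_apply, hσ, LinearMap.mulRight_apply,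
        Algebra.TensorProduct.tmul_mul_tmul, one_mul, ← mul_assoc, mul_comm _ (g : ℝ),
        show (g : ℝ) * (b k * y) = g • (b k * y) from rfl, map_smul, smul_eq_mul, mul_comm g]
  have s4 : ∀ y, (Algebra.TensorProduct.lmul'' ℚ (S := K)).toLinearMap ∘ₗ σ y
      = r ∘ₗ LinearMap.mulRight K y := fun y => b.ext fun k => by
    rw [LinearMap.comp_apply, hσ]; exact one_mul (r (b k * y))
  obtain ⟨ρ, hρ⟩ : ∃ ρ : ℝ ⊗[ℚ] ℝ →ₗ[ℚ] K ⊗[ℚ] K, ∀ x y, ρ (x ⊗ₜ y) = σ y x :=
    ⟨TensorProduct.lift (LinearMap.mk₂ ℚ (fun x y => σ y x) (fun _ _ _ => map_add _ _ _)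
      (fun q x y => map_rat_smul (σ y) q x) (fun x y y' => by rw [s1]; rfl) s2), fun _ _ => rfl⟩
  refine ⟨fun α β => ρ (P α β), fun x hx p p0 hp => ?_, fun α β => ?_⟩
  · have e : ∀ o, pt (co fun x : A => x.1) ⟨x, hx⟩ o = p o := by
      rintro (_ | α)
      · simp [pt, p0]
      · exact (hp α).symm
    have := congrArg ρ (h1 ⟨x, hx⟩)
    simp only [evP, map_sum, map_zero, e] at this
    rw [← this]
    refine sum_congr rfl fun α _ => sum_congr rfl fun β _ => ?_
    beta_reduce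
    induction P α β using TensorProduct.induction_on with
    | zero => simp
    | add x y h1 h2 => simp only [map_add, mul_add, add_mul, h1, h2]
    | tmul x y =>
      simp only [Algebra.TensorProduct.tmul_mul_tmul, one_mul, mul_one, hρ, s3]
      rw [show (p α : ℝ) * x = p α • x from rfl, map_smul, LinearMap.comp_apply,
        LinearMap.mulRight_apply, Algebra.smul_def, mul_assoc]
      rfl
  · have : ∀ z, LinearMap.mul' ℚ K (ρ z) = r (LinearMap.mul' ℚ ℝ z) := fun z => by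
      induction z using TensorProduct.induction_on with
      | zero => simp
      | tmul x y => rw [hρ]; exact LinearMap.congr_fun (s4 y) x
      | add x y h1 h2 => simp [h1, h2]
    rw [this, h2]
    split_ifs <;> simp [r1]

noncomputable def kite (a : ℝ) : Fin 4 → E 2 :=
  ![!₂[-1, 0], !₂[1, 0], !₂[a, √(1 - a ^ 2)], !₂[a, -√(1 - a ^ 2)]]

lemma kite_TR {a : ℝ} (h : a ^ 2 < 1) :
    TR (co fun x : (univ.image (kite a) : Finset (E 2)) => x.1) := by
  obtain ⟨b, hb⟩ : ∃ b, b = √(1 - a ^ 2) := ⟨_, rfl⟩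
  have b0 : b ≠ 0 := by rw [hb]; exact (Real.sqrt_pos.mpr (by linarith)).ne'
  have b2 : b ^ 2 = 1 - a ^ 2 := by rw [hb, Real.sq_sqrt (by linarith)]
  refine ⟨fun α β => if α = β then α.elim (-1) ![1, b⁻¹ ⊗ₜ b⁻¹ - (a * b⁻¹) ⊗ₜ (a * b⁻¹)] else 0, ?_,
    fun α β => ?_⟩
  · rintro ⟨x, hx⟩
    obtain ⟨i, -, rfl⟩ := mem_image.mp hx
    fin_cases i <;> simp [evP, Fintype.sum_option, pt, co, kite, ← hb, mul_sub, sub_mul,
      Algebra.TensorProduct.one_def, TensorProduct.neg_tmul, TensorProduct.tmul_neg, b0,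
      mul_left_comm b a, mul_assoc]
  · fin_cases α <;> fin_cases β <;> simp [Algebra.TensorProduct.one_def]
    field_simp
    linarith

lemma exists_ell {κ : Type} [Fintype κ] (β : κ → ℝ) (h : ∃ k, β k ≠ 0) {a : ℝ}
    (ha : Transcendental ℚ a) :
    ∃ l : ℝ →ₗ[ℚ] ℚ, (∀ k, l (a * β k) = 2 * l (β k)) ∧ ∃ k, l (β k) ≠ 0 := by
  by_cases e : ∀ k, β k ∈ Submodule.span ℚ (Set.range fun k => (a - 2) * β k)
  · refine (ha ?_).elim
    have a2 : a - 2 ≠ 0 := fun e => ha (by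
      rw [sub_eq_zero.mp e]; exact isAlgebraic_nat 2)
    obtain ⟨k, hk⟩ := h
    have := isIntegral_of_smul_mem_submodule (Submodule.span ℚ (Set.range β))
      (fun e => hk ((Submodule.eq_bot_iff _).mp e _ (Submodule.subset_span ⟨k, rfl⟩)))
      (Submodule.fg_span (Set.finite_range β)) (a - 2)⁻¹ fun x hx => by
        have : Submodule.span ℚ (Set.range β) ≤ (Submodule.span ℚ (Set.range β)).map
            (LinearMap.mulLeft ℚ (a - 2)) := by
          rw [Submodule.map_span, ← Set.range_comp]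
          exact Submodule.span_le.mpr (by rintro _ ⟨k, rfl⟩; exact e k)
        obtain ⟨y, hy, rfl⟩ := this hx
        simpa [a2] using hy
    simpa using (IsAlgebraic.inv_iff.mp this.isAlgebraic).add (isAlgebraic_nat 2)
  · obtain ⟨k, hk⟩ := not_forall.mp e
    obtain ⟨l, h1, h2⟩ := Submodule.exists_le_ker_of_notMem hk
    refine ⟨l, fun k => ?_, k, h1⟩
    have := h2 (Submodule.subset_span ⟨k, rfl⟩)
    simp only [LinearMap.mem_ker, sub_mul, map_sub, two_mul, map_add] at this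
    linarith

lemma kite_not {a : ℝ} (ha : Transcendental ℚ a) : ¬Subtransitive (univ.image (kite a)) := by
  rintro ⟨n, X, hX, f, f1, f2⟩
  obtain ⟨G, _, ⟨g0⟩, π, h1, h2⟩ := avg hX
  have m : ∀ i, kite a i ∈ univ.image (kite a) := fun i => mem_image_of_mem _ (mem_univ i)
  obtain ⟨y, hy⟩ : ∃ y : G → Fin 4 → E n, ∀ g i, y g i = π g ⟨f (kite a i), f2 _ (m i)⟩ :=
    ⟨_, fun _ _ => rfl⟩
  have hd : ∀ g i j, dist (y g i) (y g j) = dist (kite a i) (kite a j) := fun g i j => by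
    rw [hy, hy, h1]; exact f1 _ (m i) _ (m j)
  have dep : ∀ g t, y g 2 t + y g 3 t = y g 0 t + y g 1 t + a * (y g 1 t - y g 0 t) := fun g t => by
    obtain ⟨x, hx, -⟩ := copy 0 (kite a) (y g) (hd g)
    simp only [← hx, ev_apply, co, kite, Fin.sum_univ_two]
    simp
    ring
  obtain ⟨l, l1, ⟨g1, t1⟩, l2⟩ := exists_ell (fun p : G × Fin n => y p.1 1 p.2 - y p.1 0 p.2) (by
    by_contra e
    push Not at e
    have := hd g0 1 0
    rw [show y g0 1 = y g0 0 by ext t; exact sub_eq_zero.mp (e (g0, t)), dist_self, eq_comm,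
      dist_eq_zero] at this
    have := congrArg (· 0) this
    norm_num [kite] at this) ha
  have eq : ∀ i, ∑ g, ∑ t, l (y g i t) ^ 2 = ∑ g, ∑ t, l (y g 1 t) ^ 2 := fun i => by
    simp only [hy]
    exact h2 (fun x => ∑ t, l (x.1 t) ^ 2) _ _
  have s : ∑ g, ∑ t, ((l (y g 0 t) - l (y g 1 t)) ^ 2 + (l (y g 2 t) - l (y g 1 t)) ^ 2
      + (l (y g 3 t) - l (y g 1 t)) ^ 2) = 0 := by
    rw [sum_congr rfl fun g _ => sum_congr rfl fun t _ => show _ = l (y g 0 t) ^ 2 + l (y g 2 t) ^ 2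
      + l (y g 3 t) ^ 2 - 3 * l (y g 1 t) ^ 2 by
        have := congrArg l (dep g t)
        rw [map_add, map_add, map_add, l1 (g, t), map_sub] at this
        linear_combination (-2 * l (y g 1 t)) * this]
    simp only [sum_sub_distrib, sum_add_distrib, ← mul_sum, eq]
    ring
  have := (sum_eq_zero_iff_of_nonneg fun _ _ => by positivity).mp ((sum_eq_zero_iff_of_nonneg
    fun _ _ => sum_nonneg fun _ _ => by positivity).mp s g1 (mem_univ _)) t1 (mem_univ _)
  rw [map_sub, sub_ne_zero] at l2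
  have := sq_pos_of_ne_zero (sub_ne_zero.mpr l2.symm)
  nlinarith [sq_nonneg (l (y g1 2 t1) - l (y g1 1 t1)), sq_nonneg (l (y g1 3 t1) - l (y g1 1 t1))]

theorem main :
    (∀ (d : ℕ) (A : Finset (EuclideanSpace ℝ (Fin d))) (K : Subfield ℝ),
      (∀ x ∈ A, ∀ α, x α ∈ K) → (Ramsey A ↔ TensorCond K A)) ∧
    (∀ (d : ℕ) (A : Finset (EuclideanSpace ℝ (Fin d))), Subtransitive A → Ramsey A) ∧
    ∃ A : Finset (EuclideanSpace ℝ (Fin 2)), A.Nonempty ∧ Ramsey A ∧ ¬Subtransitive A := by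
  refine ⟨fun d A K hA => ⟨fun h => K_of_TR K (necessary h), fun h => sufficient (TR_of_K K hA h)⟩,
    fun d A h => sufficient (sub_TR h), univ.image (kite (Int.fract (liouvilleNumber 2))),
    univ_nonempty.image _, sufficient (kite_TR ?_), kite_not fun h => ?_⟩
  · nlinarith [Int.fract_nonneg (liouvilleNumber 2), Int.fract_lt_one (liouvilleNumber 2)]
  · refine transcendental_liouvilleNumber (m := 2) le_rfl ((IsFractionRing.isAlgebraic_iff ℤ ℚ ℝ).mpr ?_)
    simpa using h.add (isAlgebraic_intCast ⌊liouvilleNumber 2⌋)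

end Vale.Agent.P058
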