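import Vale.Agent.P058.Basic

namespace Vale.Agent.P058

open Finset
open scoped commutatorElement

abbrev lcs (k : ℕ) : Subgroup F := (⊤ : Subgroup F).lowerCentralSeries k

abbrev pr (k : ℕ) : F →* F ⧸ lcs k := QuotientGroup.mk' (lcs k)

lemma pr_one {k : ℕ} {x : F} : pr k x = 1 ↔ x ∈ lcs k := QuotientGroup.eq_one_iff x

lemma comm_mem {k : ℕ} {x : F} (h : x ∈ lcs k) (g : F) : ⁅x, g⁆ ∈ lcs (k + 1) :=
  Subgroup.commutator_mem_commutator h trivial

lemma cen {k : ℕ} {x : F} (h : x ∈ lcs k) (g : F) : Commute (pr (k + 1) x) (pr (k + 1) g) := by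
  rw [← commutatorElement_eq_one_iff_commute, ← map_commutatorElement, pr_one]
  exact comm_mem h g

lemma dil_comm {G : Type} [Group G] (ψ : F →* G) (h : ∀ x y, Commute (ψ x) (ψ y)) (n : ℕ) (g : F) :
    ψ (dil n g) = ψ g ^ n := by
  induction g using FreeGroup.induction_on with
  | C1 => simp
  | of x => rw [← lt_of, dil_lt, map_pow]
  | inv_of x ih => rw [map_inv, map_inv, ih, map_inv, inv_pow]
  | mul x y h1 h2 => rw [map_mul, map_mul, h1, h2, map_mul, (h x y).mul_pow]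

lemma dil_lcs (n k : ℕ) : ∀ x ∈ lcs k, pr (k + 1) (dil n x) = pr (k + 1) x ^ n ^ (k + 1) := by
  induction k with
  | zero => intro x _; rw [zero_add, pow_one]; exact dil_comm _ (fun x y => cen (k := 0) (Subgroup.mem_top x) y) n x
  | succ k ih =>
    intro x hx
    induction hx using Subgroup.closure_induction with
    | one => rw [map_one, map_one, one_pow]
    | mul x y hx _ h1 h2 => rw [map_mul, map_mul, h1, h2, map_mul, (cen hx y).mul_pow]
    | inv x _ h => rw [map_inv, map_inv, h, map_inv, inv_pow]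
    | mem _ hx =>
      obtain ⟨y, hy, g, -, rfl⟩ := hx
      have c : ∀ {y}, y ∈ lcs k → ∀ g b, pr (k + 1 + 1) (b * ⁅y, g⁆ * b⁻¹) = pr (k + 1 + 1) ⁅y, g⁆ :=
        fun hy g b => by
          rw [map_mul, map_mul, ← (cen (comm_mem hy g) b).eq, map_inv, mul_inv_cancel_right]
      obtain ⟨z, hz, e⟩ : ∃ z ∈ lcs (k + 1), dil n y = y ^ n ^ (k + 1) * z :=
        ⟨(y ^ n ^ (k + 1))⁻¹ * dil n y, pr_one.mp (by
          rw [map_mul, map_inv, ih y hy, map_pow, inv_mul_cancel]), by simp⟩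
      have hy' : dil n y ∈ lcs k :=
        e ▸ mul_mem (pow_mem hy _) (Subgroup.lowerCentralSeries_antitone _ (Nat.le_succ k) hz)
      have a := dil_comm (MonoidHom.mk' (fun g => pr (k + 1 + 1) ⁅dil n y, g⁆) fun g g' => by
        rw [commutatorElement_mul_right_eq_mul_conj, mul_assoc, mul_assoc, map_mul, ← mul_assoc,
          c hy']) (fun g g' => cen (comm_mem hy' g) _) n g
      have b : ∀ M : ℕ, pr (k + 1 + 1) ⁅y ^ M, g⁆ = pr (k + 1 + 1) ⁅y, g⁆ ^ M := fun M => by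
        induction M with
        | zero => rw [pow_zero, pow_zero, commutatorElement_one_left, map_one]
        | succ M ih => rw [pow_succ, commutatorElement_mul_left_eq_conj_mul, map_mul, c hy, ih,
            pow_succ']
      simp only [MonoidHom.mk'_apply] at a
      rw [map_commutatorElement, a, e, commutatorElement_mul_left_eq_conj_mul, map_mul,
        pr_one.mpr (Subgroup.Normal.conj_mem inferInstance _ (comm_mem hz g) _), one_mul, b,
        ← pow_mul, ← pow_succ]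

variable {ι : Type} {d : ℕ} {a : ι → Fin d → ℝ}

def Rel (a : ι → Fin d → ℝ) (k : ℕ) : Prop := ∀ δ : ℝ, 0 < δ → ∃ y z : ℝ, 0 < y ∧ 0 ≤ z ∧ z ≤ δ * y ∧
  ∃ Y Z, P a (y • nrm d) Y ∧ P a (z • nrm d) Z ∧ ∀ i, Y i * (Z i)⁻¹ ∈ lcs k

lemma ratio {δ y z e : ℝ} {n : ℕ} (hn : 2 / δ < n) (δ0 : 0 < δ) (y0 : 0 < y) (z0 : 0 ≤ z)
    (h : z ≤ δ / 2 * y) {M : ℝ} (e0 : 0 < e) (hM : n * e ≤ M) :
    0 < M * y + e * z ∧ 0 ≤ M * z + e * y ∧ M * z + e * y ≤ δ * (M * y + e * z) := by
  have n0 : (0 : ℝ) < n := lt_trans (by positivity) hn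
  have M0 : 0 < M := lt_of_lt_of_le (by positivity) hM
  refine ⟨by positivity, by positivity, ?_⟩
  rw [div_lt_iff₀ δ0] at hn
  have h1 := mul_le_mul_of_nonneg_left h M0.le
  have h2 : 2 * e ≤ δ * M := by nlinarith
  have h3 := mul_le_mul_of_nonneg_right h2 y0.le
  have : 0 ≤ δ * (e * z) := by positivity
  nlinarith

lemma Rel.succ {k : ℕ} (h : Rel a (k + 1)) : Rel a (k + 2) := fun δ δ0 => by
  obtain ⟨y, z, y0, z0, hz, Y, Z, hY, hZ, e⟩ := h (δ / 2) (by positivity)
  obtain ⟨n, hn⟩ := exists_nat_gt (max (2 / δ) 1)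
  have n1 : (1 : ℝ) ≤ n := ((le_max_right _ _).trans hn.le)
  obtain ⟨h1, h2, h3⟩ := ratio ((le_max_left _ _).trans_lt hn) δ0 y0 z0 hz (e := n)
    (M := (n ^ (k + 2) : ℕ)) (by linarith)
    (by rw [← sq, Nat.cast_pow]; exact pow_le_pow_right₀ n1 (by omega))
  refine ⟨_, _, h1, h2, h3, _, _, ((hY.pow (n ^ (k + 2))).mul (hZ.dil n)).cast (by module),
    ((hZ.pow (n ^ (k + 2))).mul (hY.dil n)).cast (by module), fun i => ?_⟩
  obtain ⟨w, hw⟩ : ∃ w, w = Y i * (Z i)⁻¹ := ⟨_, rfl⟩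
  have e1 : Y i = w * Z i := by simp [hw]
  have e2 := e i
  rw [← hw] at e2
  rw [← pr_one, map_mul, map_inv, mul_inv_eq_one]
  simp only [Pi.mul_apply, Pi.pow_apply, e1, map_mul, map_pow]
  rw [dil_lcs n _ w e2, (cen e2 _).mul_pow, ((cen e2 (Z i)).pow_pow _ _).eq, mul_assoc]

lemma exists_sep {i j : ι} (h : a i ≠ a j) : ∃ ψ : W d, ev a i ψ = 1 ∧ ev a j ψ = 0 := by
  obtain ⟨α, hα⟩ := Function.ne_iff.mp h
  have := sub_ne_zero.mpr hα
  refine ⟨cst d (-(a j α / (a i α - a j α))) + Pi.single (some α) (a i α - a j α)⁻¹, ?_, ?_⟩ <;>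
  · rw [map_add, ev_cst, ev_apply, sum_single]
    simp only [ne_eq, reduceCtorEq, not_false_eq_true, Pi.single_eq_of_ne]
    field_simp
    ring

lemma cheap {i j : ι} (h : a i ≠ a j) (g : F) :
    ∀ ε : ℝ, 0 < ε → ∃ q t, P a q t ∧ t j = 1 ∧ t i = g ∧ Ch a q ε := by
  obtain ⟨ψ, h1, h2⟩ := exists_sep h
  have t0 : 0 ≤ tr ψ := sum_nonneg fun _ _ => sq_nonneg _
  have step : ∀ (y η : ℝ) (k : ℕ), ∃ q t, P a q t ∧ t j = 1 ∧ t i = lt (y + k * η) * (lt y)⁻¹ ∧
      Ch a q (k * (η ^ 2 * tr ψ)) := fun y η k => by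
    induction k with
    | zero => exact ⟨0, 1, P.one, rfl, by simp, Ch.zero (by simp)⟩
    | succ k ih =>
      obtain ⟨q, t, p1, p2, p3, p4⟩ := ih
      refine ⟨_, _, ((P.col (cst d (y + k * η) + η • ψ)).mul (P.diag (lt (y + k * η))⁻¹)).mul p1,
        by simp [ev_smul, h2, p2], by simp [ev_smul, h1, p3, add_mul, add_assoc], ?_⟩
      rw [add_zero]
      convert (Ch.col (a := a) (cst d (y + k * η) + η • ψ)).add p4 using 1
      simp only [tr, Pi.add_apply, cst_some, Pi.smul_apply, smul_eq_mul, zero_add, mul_pow,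
        ← mul_sum]
      push_cast; ring
  have two : ∀ x y ε : ℝ, 0 < ε → ∃ q t, P a q t ∧ t j = 1 ∧ t i = lt x * (lt y)⁻¹ ∧ Ch a q ε :=
    fun x y ε ε0 => by
      obtain ⟨N, hN⟩ := exists_nat_gt ((x - y) ^ 2 * tr ψ / ε)
      have N0 : (0 : ℝ) < N := lt_of_le_of_lt (by positivity) hN
      obtain ⟨q, t, p1, p2, p3, p4⟩ := step y ((x - y) / N) N
      refine ⟨q, t, p1, p2, by rw [p3, mul_div_cancel₀ _ N0.ne', add_sub_cancel], p4.mono ?_⟩
      rw [div_lt_iff₀ ε0] at hN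
      rw [show N * (((x - y) / N) ^ 2 * tr ψ) = (x - y) ^ 2 * tr ψ / N by field_simp,
        div_le_iff₀ N0]
      linarith
  induction g using FreeGroup.induction_on with
  | C1 => exact fun ε ε0 => ⟨0, 1, P.one, rfl, rfl, Ch.zero ε0.le⟩
  | of x => simpa [lt_of] using two x 0
  | inv_of x _ => simpa [lt_of] using two 0 x
  | mul x y hx hy =>
    intro ε ε0
    obtain ⟨q, t, p1, p2, p3, p4⟩ := hx _ (half_pos ε0)
    obtain ⟨q', t', r1, r2, r3, r4⟩ := hy _ (half_pos ε0)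
    exact ⟨_, _, p1.mul r1, by simp [p2, r2], by simp [p3, r3], by simpa using p4.add r4⟩

def X (a : ι → Fin d → ℝ) (i : ι) (J : Finset ι) : Set F := {g | ∀ ε : ℝ, 0 < ε → ∃ Y Z,
  P a (ε • nrm d) Y ∧ P a (ε • nrm d) Z ∧ (∀ j ∈ J, Y j = Z j) ∧ Y i * (Z i)⁻¹ = g}

lemma X_inv {i : ι} {J : Finset ι} {g : F} (h : g ∈ X a i J) : g⁻¹ ∈ X a i J := fun ε ε0 => by
  obtain ⟨Y, Z, h1, h2, h3, rfl⟩ := h ε ε0
  exact ⟨Z, Y, h2, h1, fun j hj => (h3 j hj).symm, by simp⟩

lemma X_conj {i : ι} {J : Finset ι} {g : F} (h : g ∈ X a i J) (b : F) : b * g * b⁻¹ ∈ X a i J :=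
  fun ε ε0 => by
    obtain ⟨Y, Z, h1, h2, h3, rfl⟩ := h ε ε0
    exact ⟨_, _, h1.conj b, h2.conj b, fun j hj => by rw [h3 j hj], by group⟩

lemma X_comm [DecidableEq ι] {i j : ι} (hij : a i ≠ a j) {J : Finset ι} {g : F} (h : g ∈ X a i J)
    (b : F) : ⁅b, g⁆ ∈ X a i (insert j J) := fun ε ε0 => by
  obtain ⟨Y, Z, h1, h2, h3, h4⟩ := X_inv h (ε / 3) (by positivity)
  obtain ⟨q, t, p1, p2, p3, p, p4⟩ := cheap hij ((Y i)⁻¹ * b * Y j) (ε / 3) (by positivity)
  have c := p1.mul (P.diag (Y j)⁻¹)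
  refine ⟨_, _, (((h1.mul c).mul h2).mul p4).cast (by module),
    (((h2.mul c).mul h1).mul p4).cast (by module), fun k hk => ?_, ?_⟩
  · rcases mem_insert.mp hk with rfl | hk
    · simp [p2]
    · simp [h3 k hk]
  · rw [← inv_inv g, ← h4]
    simp only [Pi.mul_apply, p3, commutatorElement_def]
    group

lemma X_lcs [DecidableEq ι] (ha : Function.Injective a) (i : ι) (J : Finset ι) (hi : i ∉ J) :
    lcs J.card ≤ Subgroup.closure (X a i J) := by
  induction J using Finset.induction_on with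
  | empty =>
    refine fun g _ => Subgroup.subset_closure fun ε ε0 => ?_
    obtain ⟨p, hp⟩ := P_iso (a := a) ε0.le
    exact ⟨_, _, ((P.diag g).mul hp).cast (zero_add _), hp, by simp, by simp⟩
  | insert j J hj ih =>
    have hn : (Subgroup.closure (X a i (insert j J))).Normal := ⟨fun x hx b => by
      induction hx using Subgroup.closure_induction with
      | mem x hx => exact Subgroup.subset_closure (X_conj hx b)
      | one => simp
      | mul x y _ _ h1 h2 => convert mul_mem h1 h2 using 1; group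
      | inv x _ h => convert inv_mem h using 1; group⟩
    rw [card_insert_of_notMem hj]
    refine Subgroup.commutator_le.mpr fun x hx b _ => ?_
    have hx' := ih (fun h => hi (mem_insert_of_mem h)) hx
    clear hx
    induction hx' using Subgroup.closure_induction with
    | mem x hx =>
      rw [← commutatorElement_inv]
      exact inv_mem (Subgroup.subset_closure
        (X_comm (ha.ne fun e : i = j => hi (by simp [e])) hx b))
    | one => simp
    | mul x y _ _ h1 h2 =>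
      rw [commutatorElement_mul_left_eq_conj_mul]
      exact mul_mem (hn.conj_mem _ h2 _) h1
    | inv x _ h =>
      rw [commutatorElement_inv_left, ← commutatorElement_inv]
      exact hn.conj_mem' _ (inv_mem h) _

variable [Fintype ι] [DecidableEq ι]

lemma X_all (ha : Function.Injective a) (i : ι) {g : F} (hg : g ∈ lcs (Fintype.card ι)) :
    g ∈ X a i (univ.erase i) := by
  have hg' := X_lcs ha i _ (notMem_erase i univ) (Subgroup.lowerCentralSeries_antitone _
    (card_le_univ _) hg)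
  suffices ∀ b, b * g * b⁻¹ ∈ X a i (univ.erase i) by simpa using this 1
  clear hg
  induction hg' using Subgroup.closure_induction with
  | mem x hx => exact X_conj hx
  | one =>
    intro b ε ε0
    obtain ⟨p, hp⟩ := P_iso (a := a) ε0.le
    exact ⟨_, _, hp, hp, by simp, by simp⟩
  | mul x y _ _ h1 h2 =>
    intro b ε ε0
    obtain ⟨Y, Z, p1, p2, p3, p4⟩ := h1 b _ (half_pos ε0)
    obtain ⟨Y', Z', r1, r2, r3, r4⟩ := h2 ((Z i)⁻¹ * b) _ (half_pos ε0)
    refine ⟨_, _, (p1.mul r1).cast (by module), (p2.mul r2).cast (by module),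
      fun j hj => by simp [p3 j hj, r3 j hj], ?_⟩
    rw [Pi.mul_apply, Pi.mul_apply, eq_mul_of_mul_inv_eq r4, eq_mul_of_mul_inv_eq p4]
    group
  | inv x _ h => intro b; convert X_inv (h b) using 1; group

lemma exact_pair (ha : Function.Injective a) (h : Rel a (Fintype.card ι)) (δ : ℝ) (δ0 : 0 < δ) :
    ∃ y z : ℝ, 0 < y ∧ 0 ≤ z ∧ z ≤ δ * y ∧ ∃ x, P a (y • nrm d) x ∧ P a (z • nrm d) x := by
  obtain ⟨y, z, y0, z0, hz, Y, Z, hY, hZ, e⟩ := h (δ / 2) (by positivity)
  have : ∀ J : Finset ι, ∀ ε : ℝ, 0 < ε → ∃ Y Z, P a ((y + ε) • nrm d) Y ∧ P a ((z + ε) • nrm d) Z ∧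
      (∀ i, Y i * (Z i)⁻¹ ∈ lcs (Fintype.card ι)) ∧ ∀ j ∈ J, Y j = Z j := fun J => by
    induction J using Finset.induction_on with
    | empty =>
      intro ε ε0
      obtain ⟨p, hp⟩ := P_iso (a := a) ε0.le
      exact ⟨_, _, (hY.mul hp).cast (by module), (hZ.mul hp).cast (by module),
        fun i => by simpa using e i, by simp⟩
    | insert i J hi ih =>
      intro ε ε0
      obtain ⟨Y, Z, p1, p2, p3, p4⟩ := ih _ (half_pos ε0)
      obtain ⟨Y', Z', r1, r2, r3, r4⟩ := X_all ha i (g := (Y i)⁻¹ * Z i) (by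
        convert Subgroup.Normal.conj_mem' inferInstance _ (inv_mem (p3 i)) (Y i) using 1; group)
        _ (half_pos ε0)
      have k : Y i * Y' i = Z i * Z' i := by rw [eq_mul_of_mul_inv_eq r4]; group
      refine ⟨_, _, (p1.mul r1).cast (by module), (p2.mul r2).cast (by module), fun j => ?_,
        fun j hj => ?_⟩
      · by_cases e : j = i
        · simp [e, k]
        · simpa [r3 j (by simp [e])] using p3 j
      · by_cases e : j = i
        · simp [e, k]
        · simp [r3 j (by simp [e]), p4 j ((mem_insert.mp hj).resolve_left e)]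
  obtain ⟨Y, Z, p1, p2, -, p4⟩ := this univ (δ / 2 * y) (by positivity)
  obtain rfl : Y = Z := funext fun i => p4 i (mem_univ _)
  refine ⟨_, _, by positivity, by positivity, ?_, _, p1, p2⟩
  have : 0 ≤ δ * (δ / 2 * y) := by positivity
  nlinarith

theorem toggle (ha : Function.Injective a) (h : Rel a 1) (T : Finset ℝ) (hT : ∀ t ∈ T, 0 < t) :
    ∃ x, ∀ t ∈ T, P a (t • nrm d) x := by
  have h' : ∀ k, Rel a (k + 1) := fun k => by
    induction k with
    | zero => exact h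
    | succ k ih => exact ih.succ
  have h'' : Rel a (Fintype.card ι) := fun δ δ0 => by
    obtain ⟨y, z, y0, z0, hz, Y, Z, hY, hZ, e⟩ := h' (Fintype.card ι) δ δ0
    exact ⟨y, z, y0, z0, hz, Y, Z, hY, hZ, fun i =>
      Subgroup.lowerCentralSeries_antitone _ (Nat.le_succ _) (e i)⟩
  have one : ∀ c ε : ℝ, 0 ≤ c → 0 < ε → ∃ κ, 0 ≤ κ ∧ κ ≤ ε ∧ ∃ x, P a (κ • nrm d) x ∧
      P a ((κ + c) • nrm d) x := fun c ε c0 ε0 => by
    obtain ⟨y, z, y0, z0, hz, x, p1, p2⟩ := exact_pair ha h'' (ε / (ε + c + 1)) (by positivity)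
    rw [div_mul_eq_mul_div, le_div_iff₀ (by positivity)] at hz
    have yz : 0 < y - z := by nlinarith
    have s := Real.sq_sqrt (div_nonneg c0 yz.le)
    refine ⟨c / (y - z) * z, by positivity, ?_, _, (p2.scl √(c / (y - z))).cast (by rw [s, smul_smul]),
      (p1.scl √(c / (y - z))).cast (by rw [s, smul_smul]; congr 1; field_simp; ring)⟩
    rw [div_mul_eq_mul_div, div_le_iff₀ yz]
    nlinarith
  have many : ∀ (S : Finset ℝ), (∀ c ∈ S, 0 ≤ c) → ∀ ε : ℝ, 0 < ε → ∃ κ, κ ≤ ε ∧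
      ∃ x, P a (κ • nrm d) x ∧ ∀ c ∈ S, P a ((κ + c) • nrm d) x := fun S => by
    induction S using Finset.induction_on with
    | empty => exact fun _ ε ε0 => ⟨0, ε0.le, 1, by simpa using P.one, by simp⟩
    | insert c S hc ih =>
      intro hS ε ε0
      obtain ⟨κ, k1, x, p1, p2⟩ := ih (fun c hc => hS c (mem_insert_of_mem hc)) _ (half_pos ε0)
      obtain ⟨κ', -, k2, x', r1, r2⟩ := one c _ (hS c (mem_insert_self _ _)) (half_pos ε0)
      refine ⟨κ + κ', by linarith, x * x', (p1.mul r1).cast (by module), fun c' hc' => ?_⟩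
      rcases mem_insert.mp hc' with rfl | hc'
      · exact (p1.mul r2).cast (by module)
      · exact ((p2 c' hc').mul r1).cast (by module)
  rcases T.eq_empty_or_nonempty with rfl | hn
  · exact ⟨1, by simp⟩
  obtain ⟨κ, k1, x, -, p⟩ := many (T.image (· - T.min' hn)) (by
    simp only [mem_image]
    rintro _ ⟨t, ht, rfl⟩
    exact sub_nonneg.mpr (min'_le _ _ ht)) _ (hT _ (min'_mem T hn))
  obtain ⟨x', p'⟩ := P_iso (a := a) (sub_nonneg.mpr k1)
  exact ⟨x * x', fun t ht => ((p _ (mem_image_of_mem _ ht)).mul p').cast (by module)⟩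

end Vale.Agent.P058
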