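import Vale.Agent.P058.Abel

namespace Vale.Agent.P058

open Finset
open scoped TensorProduct

variable {ι : Type} {d : ℕ} {a : ι → Fin d → ℝ}

def pt (a : ι → Fin d → ℝ) (i : ι) : Option (Fin d) → ℝ := fun o => o.elim 1 (a i)

lemma ev_pt (i : ι) (φ : W d) : ev a i φ = ∑ o, φ o * pt a i o := by
  simp [ev_apply, Fintype.sum_option, pt]

lemma ev_single (i : ι) (α : Option (Fin d)) (x : ℝ) : ev a i (Pi.single α x) = x * pt a i α := by
  rw [ev_pt, sum_eq_single α (fun β _ h => by simp [h]) (by simp)]; simp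

noncomputable def evP (a : ι → Fin d → ℝ) (i : ι) (P : Option (Fin d) → Option (Fin d) → ℝ ⊗[ℚ] ℝ) :
    ℝ ⊗[ℚ] ℝ := ∑ α, ∑ β, (pt a i α ⊗ₜ[ℚ] (1 : ℝ)) * P α β * ((1 : ℝ) ⊗ₜ[ℚ] pt a i β)

def TR (a : ι → Fin d → ℝ) : Prop := ∃ P : Option (Fin d) → Option (Fin d) → ℝ ⊗[ℚ] ℝ,
  (∀ i, evP a i P = 0) ∧
    ∀ α β : Fin d, LinearMap.mul' ℚ ℝ (P (some α) (some β)) = if α = β then 1 else 0

abbrev R3 := QA ℝ ⧸ I ^ 3

noncomputable def e3 (x : ℝ) : R3 := Ideal.Quotient.mk _ (dl x - 1)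

lemma e3_3 (x y z : ℝ) : e3 x * e3 y * e3 z = 0 := by
  simp only [e3, ← map_mul, Ideal.Quotient.eq_zero_iff_mem]
  rw [pow_three']
  exact Ideal.mul_mem_mul (Ideal.mul_mem_mul (mem_I x) (mem_I y)) (mem_I z)

lemma e3_add (x y : ℝ) : e3 (x + y) = e3 x + e3 y + e3 x * e3 y := by
  simp only [e3, ← map_mul, ← map_add, dl_add]; congr 1; ring

noncomputable def L3 : ℝ →ₗ[ℚ] R3 := AddMonoidHom.toRatLinearMap (AddMonoidHom.mk'
  (fun x => e3 x - algebraMap ℚ R3 (1 / 2) * e3 x ^ 2) fun x y => by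
    have h : algebraMap ℚ R3 (1 / 2) * 2 = 1 := by
      rw [← map_ofNat (algebraMap ℚ R3) 2, ← map_mul]; norm_num
    rw [e3_add]
    linear_combination (-e3 x * e3 y) * h - e3_3 x x y * (algebraMap ℚ R3 (1 / 2) * (2 + e3 y))
      - e3_3 x y y * (algebraMap ℚ R3 (1 / 2) * 2))

lemma L3_mul (x y : ℝ) : L3 x * L3 y = e3 x * e3 y := by
  show (e3 x - _ * _) * (e3 y - _ * _) = _
  linear_combination (-algebraMap ℚ R3 (1 / 2)) * e3_3 x y y - algebraMap ℚ R3 (1 / 2) *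
    (1 - algebraMap ℚ R3 (1 / 2) * e3 y) * e3_3 x x y

lemma L3_sq (x : ℝ) : Ideal.Quotient.mk _ (dl x + dl (-x)) = 2 + L3 x * L3 x := by
  have h := e3_add x (-x)
  have h' := L3_mul x (-x)
  rw [map_neg] at h'
  rw [add_neg_cancel, e3, dl_zero, sub_self, map_zero] at h
  have : Ideal.Quotient.mk (I ^ 3) (dl x + dl (-x)) = 2 + e3 x + e3 (-x) := by
    simp only [e3, map_sub, map_add, map_one]; ring
  linear_combination this - h + h'

noncomputable def b3 : ℝ ⊗[ℚ] ℝ →ₗ[ℚ] R3 := LinearMap.mul' ℚ R3 ∘ₗ TensorProduct.map L3 L3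

def Rp (a : ι → Fin d → ℝ) (T : ι → ℝ ⊗[ℚ] ℝ) (q : Cost d) (ε : ℝ) : Prop := ∃ ν : QA (W d),
  (∀ i, Ideal.Quotient.mk _ (mp (ev a i) ν) = b3 (T i)) ∧ Qc ν = q ∧ Neg ν ε

lemma Rp.add {T T' : ι → ℝ ⊗[ℚ] ℝ} {q q' : Cost d} {ε ε' : ℝ} (h : Rp a T q ε) (h' : Rp a T' q' ε') :
    Rp a (T + T') (q + q') (ε + ε') := by
  obtain ⟨ν, a1, a2, a3⟩ := h
  obtain ⟨ν', b1, b2, b3⟩ := h'
  exact ⟨_, fun i => by simp [a1, b1], by rw [map_add, a2, b2], a3.add b3⟩

lemma Rp.mono {T T' : ι → ℝ ⊗[ℚ] ℝ} {q q' : Cost d} {ε ε' : ℝ} (h : Rp a T q ε) (e1 : T = T')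
    (e2 : q = q') (e : ε ≤ ε') : Rp a T' q' ε' := by
  obtain ⟨ν, a1, a2, a3⟩ := h
  exact ⟨_, e1 ▸ a1, e2 ▸ a2, a3.mono e⟩

def vv (v : Fin d → ℝ) : Option (Fin d) → ℝ := fun o => o.elim 0 v

lemma lin_single (α : Option (Fin d)) (x : ℝ) (v : Fin d → ℝ) :
    ∑ β, (Pi.single α x : W d) (some β) * v β = x * vv v α := by
  rcases α with _ | α
  · simp [vv]
  · exact sum_single α x v

lemma Rp_two (u w : W d) : Rp a (fun i => ev a i u ⊗ₜ ev a i w)
    (fun v => 2 * ((∑ α, u (some α) * v α) * ∑ α, w (some α) * v α)) (tr (u - w)) := by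
  have c : ∀ s : W d, cost (-s) = cost s := fun s => by
    rw [← neg_one_smul ℝ s, cost_smul]; simp
  refine ⟨(1 / 4 : ℚ) • (dl (u + w) + dl (-(u + w)) - (dl (u - w) + dl (-(u - w)))), fun i => ?_, ?_,
    (1 / 4 : ℚ) • (dl (u - w) + dl (-(u - w))),
    Pos_smul (by norm_num) (add_mem (Pos_dl _) (Pos_dl _)), ?_, ?_⟩
  · have : ∀ (q : ℚ) x, Ideal.Quotient.mk (I ^ 3) (q • x) = q • Ideal.Quotient.mk (I ^ 3) x :=
      fun q x => map_smul (Ideal.Quotient.mkₐ ℚ (I ^ 3)) q x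
    rw [map_smul, this, map_sub, map_add, map_add, mp_dl, mp_dl, mp_dl, mp_dl,
      map_neg, map_neg, map_sub, L3_sq, L3_sq]
    simp only [b3, map_add, map_sub, LinearMap.comp_apply, TensorProduct.map_tmul,
      LinearMap.mul'_apply]
    rw [show ∀ x y : R3, 2 + (x + y) * (x + y) - (2 + (x - y) * (x - y)) = (4 : ℕ) • (x * y) from
      fun x y => by ring, ← Nat.cast_smul_eq_nsmul ℚ, smul_smul]
    norm_num
  · ext v
    simp only [map_smul, map_sub, map_add, Qc_dl, c, Pi.smul_apply, Pi.sub_apply, Pi.add_apply,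
      Rat.smul_def, cost, add_mul, sub_mul, sum_add_distrib, sum_sub_distrib]
    push_cast; ring
  · convert Pos_smul (q := 1 / 4) (by norm_num) (add_mem (Pos_dl (u + w)) (Pos_dl (-(u + w)))) using 1
    module
  · simp only [map_smul, map_add, Qc_dl, c, trc_cost, Rat.smul_def]
    have : 0 ≤ tr (u - w) := sum_nonneg fun _ _ => sq_nonneg _
    push_cast; linarith

noncomputable def En (a : ι → Fin d → ℝ) (α β : Option (Fin d)) (z : ℝ ⊗[ℚ] ℝ) : ι → ℝ ⊗[ℚ] ℝ :=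
  fun i => (pt a i α ⊗ₜ[ℚ] (1 : ℝ)) * z * ((1 : ℝ) ⊗ₜ[ℚ] pt a i β)

lemma tr_single (α : Option (Fin d)) (x : ℝ) : tr (Pi.single α x : W d) = α.elim 0 fun _ => x ^ 2 := by
  rcases α with _ | α
  · simp [tr]
  · rw [tr, sum_eq_single α (fun β _ h => by simp [h]) (by simp)]; simp

lemma Rp_en (α β : Option (Fin d)) (x y : ℝ) {r : ℚ} (hr : 0 < r) :
    Rp a (En a α β (x ⊗ₜ y)) (fun v => 2 * (x * y * vv v α * vv v β))
      (2 * (α.elim 0 fun _ => (r * x) ^ 2) + 2 * β.elim 0 fun _ => (y / r) ^ 2) := by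
  have r0 : (r : ℝ) ≠ 0 := by exact_mod_cast hr.ne'
  refine (Rp_two (Pi.single α (r * x)) (Pi.single β (y / r))).mono ?_ ?_ ?_
  · ext i
    simp only [ev_single, En, Algebra.TensorProduct.tmul_mul_tmul, mul_one, one_mul]
    rw [mul_assoc, ← Rat.smul_def, TensorProduct.smul_tmul, Rat.smul_def, mul_comm x]
    congr 1; field_simp
  · ext v
    simp only [lin_single]; field_simp
  · rw [← tr_single, ← tr_single, tr, tr, tr, mul_sum, mul_sum, ← sum_add_distrib]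
    exact sum_le_sum fun γ _ => by
      rw [Pi.sub_apply]
      nlinarith [sq_nonneg ((Pi.single α (r * x) : W d) (some γ) + (Pi.single β (y / r) : W d) (some γ))]

lemma small (C : ℝ) {ε : ℝ} (h : 0 < ε) : ∃ r : ℚ, 0 < r ∧ (r : ℝ) ^ 2 * C ≤ ε := by
  obtain ⟨r, h1, h2⟩ := exists_rat_btwn (lt_min one_pos (div_pos h (by positivity : 0 < |C| + 1)))
  have a := (lt_div_iff₀ (by positivity)).mp (h2.trans_le (min_le_right _ _))
  have b := h2.trans_le (min_le_left _ _)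
  refine ⟨r, by exact_mod_cast h1, ?_⟩
  have c : (r : ℝ) ^ 2 ≤ r := by nlinarith
  nlinarith [mul_le_mul_of_nonneg_left (le_abs_self C) (sq_nonneg (r : ℝ)),
    mul_le_mul_of_nonneg_right c (abs_nonneg C)]

lemma En_add (α β : Option (Fin d)) (z z' : ℝ ⊗[ℚ] ℝ) :
    En a α β (z + z') = En a α β z + En a α β z' := by
  ext i; simp [En, mul_add, add_mul]

lemma Rp_zero {ε : ℝ} (h : 0 ≤ ε) : Rp a 0 0 ε :=
  ⟨0, by simp, by simp, 0, zero_mem _, by simp, by simpa using h⟩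

lemma Rp_ker (α β : Option (Fin d)) (z : ℝ ⊗[ℚ] ℝ) :
    ∀ ε : ℝ, 0 < ε → Rp a (En a α β (z - LinearMap.mul' ℚ ℝ z ⊗ₜ 1)) 0 ε := by
  induction z using TensorProduct.induction_on with
  | zero => exact fun ε h => (Rp_zero h.le).mono (by ext i; simp [En]) rfl le_rfl
  | add z z' h1 h2 =>
    exact fun ε h => ((h1 _ (half_pos h)).add (h2 _ (half_pos h))).mono (by
      rw [← En_add, map_add, TensorProduct.add_tmul]; congr 1; abel) (by simp) (by linarith)
  | tmul x y =>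
    intro ε h
    obtain ⟨r, r0, hr⟩ := small (4 * (x ^ 2 + 1)) h
    have r1 : (0 : ℝ) < r := by exact_mod_cast r0
    obtain ⟨q, q1, q2⟩ := exists_rat_btwn (show y - r ^ 2 < y by nlinarith)
    refine ((Rp_en α β x (y - q) r0).add (Rp_en α β (-(x * (y - q))) 1 (inv_pos.mpr r0))).mono ?_
      (by ext v; simp) ?_
    · rw [← En_add]
      congr 1
      have : x ⊗ₜ[ℚ] (q : ℝ) = (x * q) ⊗ₜ[ℚ] (1 : ℝ) := by
        rw [mul_comm, ← Rat.smul_def, TensorProduct.smul_tmul, Rat.smul_one_eq_cast]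
      rw [TensorProduct.tmul_sub, this, mul_sub, TensorProduct.neg_tmul, TensorProduct.sub_tmul,
        LinearMap.mul'_apply]
      abel
    · have e : ((y - q) / r) ^ 2 ≤ r ^ 2 := pow_le_pow_left₀ (div_nonneg (by linarith) r1.le)
        (by rw [div_le_iff₀ r1]; linarith) 2
      have e' := mul_le_mul_of_nonneg_left e (sq_nonneg x)
      have l : ∀ (o : Option (Fin d)) (t : ℝ), (o.elim 0 fun _ => t ^ 2) ≤ t ^ 2 := fun o t => by
        rcases o with _ | _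
        exacts [sq_nonneg t, le_rfl]
      have l1 := l α (r * x)
      have l2 := l β ((y - q) / r)
      have l3 := l α ((r⁻¹ : ℚ) * -(x * (y - q)))
      have l4 := l β (1 / (r⁻¹ : ℚ))
      have e3 : (((r⁻¹ : ℚ) : ℝ) * -(x * (y - q))) ^ 2 = x ^ 2 * ((y - q) / r) ^ 2 := by
        push_cast; ring
      have e4 : (1 / ((r⁻¹ : ℚ) : ℝ)) ^ 2 = r ^ 2 := by simp
      linarith

theorem arel (h : TR a) : ARel a 3 := fun δ δ0 => by
  obtain ⟨P, h1, h2⟩ := h
  have key : ∀ p : Option (Fin d) × Option (Fin d), ∀ ε : ℝ, 0 < ε → Rp a (En a p.1 p.2 (P p.1 p.2))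
      (fun v => 2 * (LinearMap.mul' ℚ ℝ (P p.1 p.2) * vv v p.1 * vv v p.2)) ε := by
    rintro ⟨α, β⟩ ε h
    suffices Rp a (En a α β (LinearMap.mul' ℚ ℝ (P α β) ⊗ₜ 1))
        (fun v => 2 * (LinearMap.mul' ℚ ℝ (P α β) * vv v α * vv v β)) (ε / 2) from
      ((Rp_ker α β (P α β) _ (half_pos h)).add this).mono (by rw [← En_add, sub_add_cancel])
        (zero_add _) (by linarith)
    obtain ⟨m, hm⟩ : ∃ m, m = LinearMap.mul' ℚ ℝ (P α β) := ⟨_, rfl⟩
    obtain ⟨r, r0, hr⟩ := small (4 * (m ^ 2 + 1)) h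
    rcases α with _ | α
    · refine (Rp_en _ β _ 1 (inv_pos.mpr r0)).mono rfl (by simp) ?_
      rcases β with _ | β <;> simp <;> nlinarith [sq_nonneg (r * m)]
    rcases β with _ | β
    · refine (Rp_en _ _ _ 1 r0).mono rfl (by simp) ?_
      simp only [← hm, Option.elim]
      nlinarith [sq_nonneg (r : ℝ)]
    rw [h2]
    split_ifs with e
    · subst e
      refine (Rp_two (Pi.single (some α) 1) (Pi.single (some α) 1)).mono ?_ ?_ ?_
      · ext i; simp [ev_single, En]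
      · ext v; simp only [lin_single, one_mul]
      · simp [tr]; linarith
    · exact (Rp_zero (half_pos h).le).mono (by ext i; simp [En]) (by ext v; simp) le_rfl
  have all : ∀ s : Finset (Option (Fin d) × Option (Fin d)), ∀ ε : ℝ, 0 < ε →
      Rp a (∑ p ∈ s, En a p.1 p.2 (P p.1 p.2))
      (∑ p ∈ s, fun v => 2 * (LinearMap.mul' ℚ ℝ (P p.1 p.2) * vv v p.1 * vv v p.2)) ε := fun s => by
    induction s using Finset.induction_on with
    | empty => exact fun ε h => Rp_zero h.le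
    | insert p s hp ih =>
      intro ε h
      rw [sum_insert hp, sum_insert hp]
      exact ((key p _ (half_pos h)).add (ih _ (half_pos h))).mono rfl rfl (by linarith)
  obtain ⟨ν, a1, a2, a3⟩ := all univ δ δ0
  refine ⟨(1 / 2 : ℚ) • ν, ?_, (a3.smul (by norm_num)).mono (by push_cast; linarith), fun i => ?_⟩
  · ext v
    simp [a2, Fintype.sum_prod_type, Fintype.sum_option, vv, h2, Rat.smul_def, nrm, mul_sum, sq]
  · rw [map_smul, Algebra.smul_def]
    refine Ideal.mul_mem_left _ _ (Ideal.Quotient.eq_zero_iff_mem.mp ?_)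
    rw [a1, Finset.sum_apply, Fintype.sum_prod_type]
    exact (congrArg b3 (h1 i)).trans (by simp)

end Vale.Agent.P058
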